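import Mathlib

namespace Vale.Agent.P194
open Polynomial

lemma greedy {ι Y : Type} [DecidableEq ι] (f g : ι → Y) (T : Finset ι) (hf : Set.InjOn f T)
    (hg : Set.InjOn g T) (h : ∀ i ∈ T, f i ≠ g i) :
    ∃ I ⊆ T, T.card ≤ 3 * I.card ∧ ∀ i ∈ I, ∀ i' ∈ I, f i ≠ g i' := by
  classical
  obtain ⟨P, hP⟩ : ∃ P : Finset (Finset ι), ∀ I, I ∈ P ↔ I ⊆ T ∧ ∀ i ∈ I, ∀ i' ∈ I, f i ≠ g i' :=
    ⟨T.powerset.filter fun I => ∀ i ∈ I, ∀ i' ∈ I, f i ≠ g i', by simp⟩
  obtain ⟨I, hI, hm⟩ := Finset.exists_max_image P Finset.card ⟨∅, by simp [hP]⟩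
  obtain ⟨h1, h2⟩ := (hP I).mp hI
  refine ⟨I, h1, ?_, h2⟩
  have h3 : T ⊆ I ∪ (T.filter (fun i => f i ∈ I.image g) ∪ T.filter fun i => g i ∈ I.image f) := by
    intro i hi
    by_contra hc
    simp only [Finset.mem_union, Finset.mem_filter, Finset.mem_image, not_or, not_and,
      not_exists] at hc
    have := hm (insert i I) ((hP _).mpr ⟨Finset.insert_subset hi h1, by
        intro a ha b hb
        rcases Finset.mem_insert.mp ha with ha' | ha' <;>
          rcases Finset.mem_insert.mp hb with hb' | hb'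
        · rw [ha', hb']
          exact h _ hi
        · exact ha' ▸ fun e => hc.2.1 hi b hb' e.symm
        · exact hb' ▸ hc.2.2 hi a ha'
        · exact h2 a ha' b hb'⟩)
    rw [Finset.card_insert_of_notMem hc.1] at this
    omega
  have key : ∀ f g : ι → Y, Set.InjOn f T → (T.filter fun i => f i ∈ I.image g).card ≤ I.card :=
    fun f g hf => (Finset.card_le_card_of_injOn f (fun i hi => (Finset.mem_filter.mp hi).2)
      (hf.mono fun i hi => (Finset.mem_filter.mp hi).1)).trans Finset.card_image_le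
  have := (Finset.card_le_card h3).trans ((Finset.card_union_le _ _).trans
    (Nat.add_le_add_left (Finset.card_union_le _ _) _))
  have := key f g hf
  have := key g f hg
  omega

lemma count_eq {ι Y D : Type} [Fintype Y] [DecidableEq Y] [Fintype D] [DecidableEq D]
    (f g : ι → Y) (I : Finset ι) (hf : Set.InjOn f I) (h : ∀ i ∈ I, ∀ i' ∈ I, f i ≠ g i') :
    (Finset.univ.filter fun ρ : Y → D => ∀ i ∈ I, ρ (f i) = ρ (g i)).card *
      Fintype.card D ^ I.card ≤ Fintype.card D ^ Fintype.card Y := by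
  have h1 := Finset.card_le_card_of_injOn
    (s := Finset.univ.filter fun ρ : Y → D => ∀ i ∈ I, ρ (f i) = ρ (g i))
    (t := Finset.univ) (fun ρ (y : {y // y ∉ I.image f}) => ρ y.1) (by simp) (by
      intro ρ hρ ρ' hρ' e
      simp only [Finset.coe_filter, Finset.mem_univ, true_and, Set.mem_ofPred_eq] at hρ hρ'
      funext y
      by_cases hy : y ∈ I.image f
      · obtain ⟨i, hi, rfl⟩ := Finset.mem_image.mp hy
        rw [hρ i hi, hρ' i hi]
        refine congrFun e ⟨g i, fun hc => ?_⟩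
        obtain ⟨i', hi', e'⟩ := Finset.mem_image.mp hc
        exact h i' hi' i hi e'
      · exact congrFun e ⟨y, hy⟩)
  rw [Finset.card_univ, Fintype.card_fun, Fintype.card_subtype_compl, Fintype.card_coe,
    Finset.card_image_of_injOn hf] at h1
  refine (Nat.mul_le_mul_right _ h1).trans (le_of_eq ?_)
  rw [← pow_add, Nat.sub_add_cancel]
  rw [← Finset.card_image_of_injOn hf]
  exact Finset.card_le_univ _

/-- the walk with given start and steps -/
def wk {Y A : Type} (nb : Y → A → Y) (y : Y) (α : ℕ → A) : ℕ → Y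
  | 0 => y
  | i + 1 => nb (wk nb y α i) (α i)

theorem random {Y A D : Type} [Fintype Y] [Fintype A] [Nonempty A] [Fintype D] (nb : Y → A → Y)
    {m : ℕ} (hm : (Fintype.card Y * Fintype.card A ^ (3 * m)) ^ 2 < Fintype.card D ^ m)
    [Nonempty D] :
    ∃ ρ : Y → D, ∀ p p' : ℕ → Y, (∀ i, i + 1 < 3 * m → ∃ a, p (i + 1) = nb (p i) a) →
      (∀ i, i + 1 < 3 * m → ∃ a, p' (i + 1) = nb (p' i) a) →
      Set.InjOn p (Finset.range (3 * m)) → Set.InjOn p' (Finset.range (3 * m)) →
      (∀ i < 3 * m, ρ (p i) = ρ (p' i)) → ∃ i < 3 * m, p i = p' i := by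
  classical
  obtain ⟨a0⟩ := ‹Nonempty A›
  let W : Y × (Fin (3 * m) → A) → ℕ → Y := fun b =>
    wk nb b.1 fun i => if h : i < 3 * m then b.2 ⟨i, h⟩ else a0
  have hW : ∀ p : ℕ → Y, (∀ i, i + 1 < 3 * m → ∃ a, p (i + 1) = nb (p i) a) →
      ∃ b, ∀ i < 3 * m, p i = W b i := by
    intro p hp
    choose! α hα using hp
    refine ⟨(p 0, fun i => α i), fun i => ?_⟩
    induction i with
    | zero => exact fun _ => rfl
    | succ i ih =>
      intro hi
      rw [hα i hi, ih (by omega)]
      simp only [W, wk, show i < 3 * m by omega, dif_pos]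
  obtain ⟨E, mE⟩ : ∃ E : (Y × (Fin (3 * m) → A)) × (Y × (Fin (3 * m) → A)) → Finset (Y → D),
      ∀ b ρ, ρ ∈ E b ↔ Set.InjOn (W b.1) (Finset.range (3 * m)) ∧
      Set.InjOn (W b.2) (Finset.range (3 * m)) ∧
      ∀ i ∈ Finset.range (3 * m), W b.1 i ≠ W b.2 i ∧ ρ (W b.1 i) = ρ (W b.2 i) :=
    ⟨fun b => Finset.univ.filter _, fun b ρ => Finset.mem_filter_univ _⟩
  have hE : ∀ b ∈ Finset.univ, (E b).card * Fintype.card D ^ m ≤
      Fintype.card D ^ Fintype.card Y := by
    intro b _
    rcases (E b).eq_empty_or_nonempty with h | ⟨ρ, h⟩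
    · simp [h]
    obtain ⟨h1, h2, h3⟩ := (mE _ _).mp h
    obtain ⟨I, i1, i2, i3⟩ := greedy _ _ _ h1 h2 fun i hi => (h3 i hi).1
    refine le_trans (Nat.mul_le_mul (Finset.card_le_card fun ρ' h' => ?_)
      (Nat.pow_le_pow_right Fintype.card_pos ?_)) (count_eq (D := D) _ _ I (h1.mono i1) i3)
    · exact Finset.mem_filter.mpr ⟨Finset.mem_univ _, fun i hi =>
        (((mE _ _).mp h').2.2 i (i1 hi)).2⟩
    · rw [Finset.card_range] at i2
      omega
  have h1 : (Finset.univ.biUnion E).card < (Finset.univ : Finset (Y → D)).card := by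
    refine Nat.lt_of_mul_lt_mul_right (a := Fintype.card D ^ m) ?_
    refine lt_of_le_of_lt (Nat.mul_le_mul_right _ Finset.card_biUnion_le) ?_
    rw [Finset.sum_mul]
    refine lt_of_le_of_lt (Finset.sum_le_card_nsmul _ _ _ hE) ?_
    rw [Finset.card_univ, Finset.card_univ, Fintype.card_fun, smul_eq_mul, mul_comm]
    refine Nat.mul_lt_mul_of_pos_left ?_ (pow_pos Fintype.card_pos _)
    simpa [sq] using hm
  obtain ⟨ρ, -, h2⟩ := Finset.exists_mem_notMem_of_card_lt_card h1
  refine ⟨ρ, fun p p' hp hp' i1 i2 h => ?_⟩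
  obtain ⟨b, hb⟩ := hW p hp
  obtain ⟨b', hb'⟩ := hW p' hp'
  by_contra hc
  push Not at hc
  refine h2 (Finset.mem_biUnion.mpr ⟨(b, b'), Finset.mem_univ _, (mE _ _).mpr
    ⟨i1.congr fun i hi => hb i (by simpa using hi),
      i2.congr fun i hi => hb' i (by simpa using hi), fun i hi => ?_⟩⟩)
  rw [Finset.mem_range] at hi
  rw [← hb i hi, ← hb' i hi]
  exact ⟨hc i hi, h i hi⟩

theorem exists_girth (F : Type) [Field F] [Fintype F] [CharP F 2] (g : ℕ) :
    ∃ (H : Type) (_ : Fintype H) (_ : Nonempty H) (T : F → H → H), (∀ a x, T a (T a x) = x) ∧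
      Fintype.card H ≤ Fintype.card F ^ (4 * g) ∧
      ∀ n (c : ℕ → F) (x : ℕ → H), 0 < n → n < g → (∀ i < n, x (i + 1) = T (c i) (x i)) →
        (∀ i, i + 1 < n → c (i + 1) ≠ c i) → x n ≠ x 0 := by
  classical
  let R := AdjoinRoot ((X : F[X]) ^ g)
  let pb := AdjoinRoot.powerBasis' (monic_X_pow (R := F) g)
  have : Module.Finite F R := pb.finite
  have : Finite R := Module.finite_of_finite F
  have hR : Nat.card R = Fintype.card F ^ g := by
    rw [Module.natCard_eq_pow_finrank (K := F), pb.finrank, Nat.card_eq_fintype_card]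
    simp [pb]
  let μ : F[X] →+* R := AdjoinRoot.mk _
  have h2 : (2 : R) = 0 := by
    rw [← map_ofNat (algebraMap F R), CharTwo.two_eq_zero, map_zero]
  let M : F → Matrix (Fin 2) (Fin 2) R := fun a =>
    !![1 + μ (C a) * μ X, μ X; μ (C a) ^ 2 * μ X, 1 + μ (C a) * μ X]
  have hM : ∀ a, M a * M a = 1 := by
    intro a
    ext i j
    fin_cases i <;> fin_cases j <;> simp only [M, Matrix.mul_apply, Fin.sum_univ_two] <;>
      generalize μ (C a) = y <;> generalize μ X = t <;> simp
    · linear_combination (y * t + y ^ 2 * t ^ 2) * h2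
    · linear_combination (t + y * t ^ 2) * h2
    · linear_combination (y ^ 2 * t + y ^ 3 * t ^ 2) * h2
    · linear_combination (y * t + y ^ 2 * t ^ 2) * h2
  let U : F → (Matrix (Fin 2) (Fin 2) R)ˣ := fun a => ⟨M a, M a, hM a, hM a⟩
  refine ⟨(Matrix (Fin 2) (Fin 2) R)ˣ, Fintype.ofFinite _, ⟨1⟩, fun a x => x * U a,
    fun a x => ?_, ?_, fun n c x h0 hn hx hc he => ?_⟩
  · simp only [mul_assoc, show U a * U a = 1 from Units.ext (hM a), mul_one]
  · rw [← @Nat.card_eq_fintype_card _ (Fintype.ofFinite _)]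
    refine (Nat.card_le_card_of_injective _ Units.val_injective).trans (le_of_eq ?_)
    change Nat.card (Fin 2 → Fin 2 → R) = _
    rw [Nat.card_fun, Nat.card_fun, hR, ← pow_mul, ← pow_mul]
    simp [mul_comm]
  · have key : ∀ i ≤ n, ∃ p q : F[X], ((x 0)⁻¹ * x i).1 0 0 = μ p ∧ ((x 0)⁻¹ * x i).1 0 1 = μ q ∧
        p.natDegree ≤ i ∧ q.natDegree ≤ i ∧ (i < n → p.coeff i + c i * q.coeff i ≠ 0) ∧
        (0 < i → q.coeff i ≠ 0) := by
      intro i
      induction i with
      | zero => exact fun _ => ⟨1, 0, by simp, by simp, by simp, by simp, by simp, by simp⟩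
      | succ i ih =>
        intro hi
        obtain ⟨p, q, e1, e2, d1, d2, k1, -⟩ := ih (by omega)
        have k1 := k1 (by omega)
        have d3 : (p + C (c i) * q).natDegree ≤ i :=
          natDegree_add_le_of_degree_le d1 ((natDegree_C_mul_le _ _).trans d2)
        have d4 : ((p + C (c i) * q) * X).natDegree ≤ i + 1 :=
          natDegree_mul_le.trans (Nat.add_le_add d3 natDegree_X_le)
        have z1 := coeff_eq_zero_of_natDegree_lt (Nat.lt_succ_of_le d1)
        have z2 := coeff_eq_zero_of_natDegree_lt (Nat.lt_succ_of_le d2)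
        refine ⟨p + C (c i) * ((p + C (c i) * q) * X), q + (p + C (c i) * q) * X, ?_, ?_,
          natDegree_add_le_of_degree_le (by omega) ((natDegree_C_mul_le _ _).trans d4),
          natDegree_add_le_of_degree_le (by omega) d4, fun h => ?_, fun _ => ?_⟩
        · rw [hx i hi, ← mul_assoc, Units.val_mul, Matrix.mul_apply, Fin.sum_univ_two, e1, e2]
          simp [U, M]
          ring
        · rw [hx i hi, ← mul_assoc, Units.val_mul, Matrix.mul_apply, Fin.sum_univ_two, e1, e2]
          simp [U, M]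
          ring
        · simp only [coeff_add, coeff_C_mul, coeff_mul_X, z1, z2, zero_add]
          rw [← add_mul]
          refine mul_ne_zero (fun h' => hc i h ?_) k1
          rw [← CharTwo.sub_eq_add, sub_eq_zero] at h'
          exact h'.symm
        · simpa only [coeff_add, coeff_C_mul, coeff_mul_X, z2, zero_add] using k1
    obtain ⟨p, q, -, e2, -, -, -, k⟩ := key n le_rfl
    rw [he, inv_mul_cancel] at e2
    have : (X : F[X]) ^ g ∣ q := AdjoinRoot.mk_eq_zero.mp (e2.symm.trans (by simp))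
    exact k h0 (X_pow_dvd_iff.mp this n hn)

end Vale.Agent.P194
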