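import Vale.Agent.P194.Build

namespace Vale.Agent.P194
open Equiv Equiv.Perm

set_option linter.unusedSectionVars false

variable {A G V : Type} [Group G] (Γ : Sys A G V)

/-- edges of the extended graph -/
def ExtE (z : V ⊕ ℕ) (a : A) (z' : V ⊕ ℕ) : Prop :=
  (∃ v v', z = Sum.inl v ∧ z' = Sum.inl v' ∧ Γ.st v a v') ∨
    (∃ i, z = Sum.inr i ∧ z' = Sum.inr (i + 1))

/-- sum of a function along a word -/
def Iw (gen : A → G) (f : G → A → ℤ) : G → List A → ℤ
  | _, [] => 0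
  | x, a :: w => f x a + Iw gen f (x * gen a) w

variable {Γ}

lemma Ch.sum {D : Type} [Fintype D] [DecidableEq D] {gen : A → G} (f : G → A → ℤ) {x : D → G}
    {lab : D → A} {σ : Perm D} {a b : D} {l : List D}
    (h : Ch σ a l b) (hx : ∀ d ∈ l, x (σ d) = x d * gen (lab d)) :
    (l.map fun d => f (x d) (lab d)).sum = Iw gen f (x (σ a)) (l.map lab) := by
  induction l generalizing a with
  | nil => rfl
  | cons d l ih =>
    rw [List.map_cons, List.sum_cons, ih h.2 fun u hu => hx u (List.mem_cons_of_mem _ hu),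
      List.map_cons, Iw, h.1, hx d (by simp)]

lemma Pre.toDg {w : List A} (h : Pre Γ w) (E : V ⊕ ℕ → A → V ⊕ ℕ → Prop)
    (hE : ∀ z a z', E z a z' → ExtE Γ z a z') {z z' : V ⊕ ℕ} (hr : Reads E z w z') :
    ∃ (D : Type) (_ : Fintype D) (_ : DecidableEq D) (T : Dat D A G V) (σ α : Perm D)
      (l : List D), Dg Γ T σ α ∧ (T.s T.star).2 = z' ∧ (T.t T.star).2 = z ∧ l.Nodup ∧
      l.length = w.length ∧ (∀ d ∈ l, α d ≠ d ∧ E (T.s d).2 (T.lab d) (T.t d).2) ∧
      (∀ d, d ∉ l → d ≠ T.star → ∃ v, (T.s d).2 = Sum.inl v) ∧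
      ∀ f : G → A → ℤ, (l.map fun d => f (T.s d).1 (T.lab d)).sum = Iw Γ.gen f 1 w := by
  obtain ⟨D, _, _, star, σ, α, lab, x, pos, l, h⟩ := h 0
  have hs : star ∉ l := (List.nodup_cons.mp h.nodup).1
  obtain ⟨s, e, k1, k2⟩ : ∃ s e : D → V ⊕ ℕ,
      ((σ star = star ∧ z = z') ∨ (σ star ∈ l ∧ s (σ star) = z)) ∧
      ∀ d ∈ l, E (s d) (lab d) (e d) ∧
        ((σ d = star ∧ e d = z') ∨ (σ d ∈ l ∧ s (σ d) = e d)) := by
    cases l with
    | nil =>
      have := h.map
      subst this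
      exact ⟨fun _ => z, fun _ => z, Or.inl ⟨h.chain, hr⟩, by simp⟩
    | cons b m =>
      obtain ⟨s, e, k1, k2⟩ := h.chain.2.assign h.nodup.of_cons (h.map ▸ hr)
      refine ⟨s, e, Or.inr ⟨by simp [h.chain.1], by rw [h.chain.1, k1]⟩, fun d hd =>
        ⟨(k2 d hd).1, (k2 d hd).2.imp id fun h => ⟨List.mem_cons_of_mem _ h.1, h.2⟩⟩⟩
  let T : Dat D A G V := ⟨star, lab,
    fun d => (x d, if d ∈ l then s d else if d = star then z' else Sum.inl (pos d)),
    fun d => (x (σ d), if d ∈ l then e d else if d = star then z else Sum.inl (pos (σ d)))⟩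
  refine ⟨D, inferInstance, inferInstance, T, σ, α, l, ⟨h.inv, h.hstar, h.junk, h.hlab,
    fun d hd => (h.xa d hd).trans (h.xs d hd).symm, h.xs, fun d hd => ?_, fun d hd => ?_, h.pl⟩,
    by simp [T, hs], by simp [T, hs], h.nodup.of_cons, by rw [← h.map, List.length_map],
    fun d hd => ⟨h.act d hd, by simpa [T, hd] using (k2 d hd).1⟩,
    fun d h1 h2 => ⟨pos d, by simp [T, h1, show d ≠ star from h2]⟩, fun f => ?_⟩
  · refine Prod.ext rfl ?_
    by_cases h1 : d ∈ l
    · rcases (k2 d h1).2 with ⟨h2, h3⟩ | ⟨h2, h3⟩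
      · simp [T, h1, h2, h3, hs]
      · simp [T, h1, h2, h3]
    · by_cases h2 : d = star
      · subst h2
        rcases k1 with ⟨h2, h3⟩ | ⟨h2, h3⟩
        · simp [T, h1, h2, h3]
        · simp [T, h1, h2, h3]
      · have h3 : ¬ (σ d ∈ l ∨ σ d = star) := fun h3 => by
          simpa [h1, h2] using h.chain.pre h3
        push Not at h3
        simp [T, h1, h2, h3]
  · by_cases h1 : d ∈ l
    · have := hE _ _ _ (k2 d h1).1
      simpa [T, h1, ExtE] using this
    · have h2 : d ≠ star := fun e => hd (by rw [e, h.hstar])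
      exact Or.inl ⟨pos d, pos (σ d), by simp [T, h1, h2], by simp [T, h1, h2], h.inner d hd h1⟩
  · have := h.chain.sum (gen := Γ.gen) f (x := x) (lab := lab) fun d hd => h.xs d (h.act d hd)
    rw [h.x0, h.map] at this
    exact this

theorem Pre.inj {l : ℕ} (hl0 : 0 < l) (hl : Piece Γ l) (hg : Girth Γ (12 * l)) {w : List A}
    (h : Pre Γ w) {v v' : V} (hr : Reads Γ.st v w v') : v = v' := by
  have hr' : Reads (fun z a z' => ∃ v v', z = Sum.inl v ∧ z' = Sum.inl v' ∧ Γ.st v a v')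
      (Sum.inl v : V ⊕ ℕ) w (Sum.inl v') := by
    clear h
    induction w generalizing v with
    | nil => exact congrArg _ hr
    | cons a w ih =>
      obtain ⟨y, h1, h2⟩ := hr
      exact ⟨Sum.inl y, ⟨v, y, rfl, rfl, h1⟩, ih h2⟩
  obtain ⟨D, _, _, T, σ, α, m, k1, k2, k3, -, -, k4, k5, -⟩ :=
    h.toDg _ (fun _ _ _ h => Or.inl h) hr'
  have := k1.closes hl0 hl hg fun d => by
    by_cases h1 : d ∈ m
    · obtain ⟨u, -, h2, -⟩ := (k4 d h1).2
      exact ⟨u, h2⟩
    · by_cases h2 : d = T.star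
      · exact ⟨v', h2 ▸ k2⟩
      · exact k5 d h1 h2
  rw [this, k3] at k2
  exact Sum.inl_injective k2

/-- Lipschitz functions on the Cayley graph -/
def Lip (gen : A → G) (φ : G → ℤ) : Prop := ∀ x a, |φ (x * gen a) - φ x| ≤ 1

/-- the discrete one-form `φ dψ` -/
def form (gen : A → G) (φ ψ : G → ℤ) (x : G) (a : A) : ℤ :=
  (φ x + φ (x * gen a)) * (ψ (x * gen a) - ψ x)

theorem Pre.iso {l : ℕ} (hl0 : 0 < l) (hl : Piece Γ l) (hg : Girth Γ (12 * l)) (θ : V → G)
    (hθ : ∀ v a v', Γ.st v a v' → θ v' = θ v * Γ.gen a) (R : ℕ)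
    (hR : ∀ φ, Lip Γ.gen φ → ∀ v y, |φ (y * θ v) - φ y| ≤ R) {w : List A} (h : Pre Γ w)
    {φ ψ : G → ℤ} (hφ : Lip Γ.gen φ) (hψ : Lip Γ.gen ψ) :
    |Iw Γ.gen (form Γ.gen φ ψ) 1 w| ≤ (2 * R + 1) * (26 * l) * (w.length + 1) := by
  classical
  have hr : ∀ (w : List A) (i : ℕ), Reads (fun (z : V ⊕ ℕ) (_ : A) z' => ∃ i, z = Sum.inr i ∧
      z' = Sum.inr (i + 1)) (Sum.inr i) w (Sum.inr (i + w.length)) := by
    intro w
    induction w with
    | nil => intro i; rfl
    | cons a w ih =>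
      intro i
      refine ⟨Sum.inr (i + 1), ⟨i, rfl, rfl⟩, ?_⟩
      rw [List.length_cons, ← add_assoc, add_right_comm]
      exact ih (i + 1)
  obtain ⟨D, _, _, T, σ, α, m, k1, k2, -, k3, k4, k5, k6, k7⟩ :=
    h.toDg _ (fun _ _ _ h => Or.inr h) (hr w 0)
  obtain ⟨σ', α', Gd, e1, e2, e3, e4, e5⟩ := k1.area hl0 hl hg ⟨_, k2⟩
  have f1 : Gd.card ≤ 26 * l * (w.length + 1) := by
    refine e5.trans (Nat.mul_le_mul_left _ ?_)
    rw [← k4, ← List.toFinset_card_of_nodup k3]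
    refine le_trans (Finset.card_le_card fun d hd => ?_) (Finset.card_insert_le T.star _)
    obtain ⟨-, i, hi⟩ := (Finset.mem_filter.mp hd).2
    by_contra h1
    simp only [Finset.mem_insert, List.mem_toFinset, not_or] at h1
    obtain ⟨v, hv⟩ := k6 d h1.2 h1.1
    simp [hv] at hi
  let F : D → ℤ := fun d => form Γ.gen φ ψ (T.s d).1 (T.lab d)
  have f2 : ∑ d ∈ Finset.univ.filter (fun d => α' d ≠ d), F d = 0 := by
    refine Finset.sum_involution (fun d _ => α' d) (fun d hd => ?_)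
      (fun d hd _ => (Finset.mem_filter.mp hd).2) (fun d hd => ?_) fun d _ => e1.inv d
    · have hd' := (Finset.mem_filter.mp hd).2
      simp only [F, form]
      rw [e1.xa d hd', e1.xt d hd', e1.lab d hd', Γ.gen_iv, mul_inv_cancel_right]
      ring
    · exact Finset.mem_filter.mpr ⟨Finset.mem_univ _, e1.act (Finset.mem_filter.mp hd).2⟩
  have f3 : Finset.univ.filter (fun d => α' d ≠ d) = Gd ∪ m.toFinset := by
    ext d
    simp only [Finset.mem_filter, Finset.mem_univ, true_and, Finset.mem_union, List.mem_toFinset,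
      e3]
    constructor
    · intro hd
      by_cases h1 : d ∈ m
      · exact Or.inr h1
      · exact Or.inl ⟨hd, k6 d h1 fun e => hd (by rw [e, e1.star])⟩
    · rintro (hd | hd)
      · exact hd.1
      · obtain ⟨i, hi, -⟩ := (k5 d hd).2
        exact (e2 d i hi).mpr (k5 d hd).1
  have f4 : Disjoint Gd m.toFinset := by
    rw [Finset.disjoint_left]
    intro d h1 h2
    obtain ⟨v, hv⟩ := ((e3 d).mp h1).2
    obtain ⟨i, hi, -⟩ := (k5 d (List.mem_toFinset.mp h2)).2
    simp [hv] at hi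
  rw [f3, Finset.sum_union f4, List.sum_toFinset _ k3, k7] at f2
  have hv : ∀ d, ∃ y : G, d ∈ Gd → ∃ v, (T.s d).2 = Sum.inl v ∧ y * θ v = (T.s d).1 := by
    intro d
    by_cases hd : d ∈ Gd
    · obtain ⟨v, hv⟩ := ((e3 d).mp hd).2
      exact ⟨(T.s d).1 * (θ v)⁻¹, fun _ => ⟨v, hv, by simp⟩⟩
    · exact ⟨1, fun h => absurd h hd⟩
  choose y hy using hv
  have g0 : ∀ d ∈ Gd, (T.s (σ' d)).1 = (T.s d).1 * Γ.gen (T.lab d) := fun d hd => by
    rw [e1.sd d (Or.inl ((e3 d).mp hd).1), e1.xt d ((e3 d).mp hd).1]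
  have g1 : ∀ d ∈ Gd, y (σ' d) = y d := by
    intro d hd
    obtain ⟨v, a1, a2⟩ := hy d hd
    obtain ⟨v', b1, b2⟩ := hy _ (e4 d hd)
    obtain ⟨v'', c1, c2⟩ := e1.edgeL ((e3 d).mp hd).1 a1
    rw [e1.sd d (Or.inl ((e3 d).mp hd).1), c1, Sum.inl.injEq] at b1
    rw [g0 d hd, ← a2, ← b1, hθ _ _ _ c2, ← mul_assoc] at b2
    simpa using b2
  have g2 : ∑ d ∈ Gd, φ (y d) * ψ (T.s (σ' d)).1 = ∑ d ∈ Gd, φ (y d) * ψ (T.s d).1 := by
    refine Finset.sum_nbij σ' e4 σ'.injective.injOn ?_ fun d hd => by rw [g1 d hd]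
    exact Finset.surjOn_of_injOn_of_card_le σ' e4 σ'.injective.injOn le_rfl
  have g3 : ∑ d ∈ Gd, F d =
      ∑ d ∈ Gd, (F d - 2 * (φ (y d) * ψ (T.s (σ' d)).1 - φ (y d) * ψ (T.s d).1)) := by
    rw [Finset.sum_sub_distrib, ← Finset.mul_sum, Finset.sum_sub_distrib, g2]
    simp
  have g4 : ∀ d ∈ Gd, |F d - 2 * (φ (y d) * ψ (T.s (σ' d)).1 - φ (y d) * ψ (T.s d).1)| ≤
      2 * R + 1 := by
    intro d hd
    obtain ⟨v, a1, a2⟩ := hy d hd
    have b1 := hR φ hφ v (y d)
    have b2 := hφ (T.s d).1 (T.lab d)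
    have b3 := hψ (T.s d).1 (T.lab d)
    rw [a2] at b1
    rw [g0 d hd]
    simp only [F, form]
    have : (φ (T.s d).1 + φ ((T.s d).1 * Γ.gen (T.lab d))) *
        (ψ ((T.s d).1 * Γ.gen (T.lab d)) - ψ (T.s d).1) -
        2 * (φ (y d) * ψ ((T.s d).1 * Γ.gen (T.lab d)) - φ (y d) * ψ (T.s d).1) =
        (2 * (φ (T.s d).1 - φ (y d)) + (φ ((T.s d).1 * Γ.gen (T.lab d)) - φ (T.s d).1)) *
        (ψ ((T.s d).1 * Γ.gen (T.lab d)) - ψ (T.s d).1) := by ring
    rw [this, abs_mul]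
    refine (mul_le_of_le_one_right (abs_nonneg _) b3).trans ?_
    rw [abs_le] at b1 b2 ⊢
    constructor <;> linarith [b1.1, b1.2, b2.1, b2.2]
  rw [eq_neg_of_add_eq_zero_right f2, abs_neg, g3]
  refine (Finset.abs_sum_le_sum_abs _ _).trans ((Finset.sum_le_sum g4).trans ?_)
  rw [Finset.sum_const, nsmul_eq_mul, mul_comm, mul_assoc]
  gcongr
  exact_mod_cast f1

/-- A folded graph labelled by letters of a free group. -/
structure Gr (S V : Type) where
  st : V → S × Bool → V → Prop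
  st_fun : ∀ {v a v' v''}, st v a v' → st v a v'' → v' = v''
  st_rev : ∀ {v a v'}, st v a v' → st v' (a.1, !a.2) v
  full : ∀ a, ∃ v v', st v a v'

variable {S : Type}

/-- the relators -/
def Gr.rel (L : Gr S V) : Set (FreeGroup S) := {g | ∃ v w, Reads L.st v w v ∧ g = FreeGroup.mk w}

/-- the graphical presentation -/
abbrev Gr.Grp (L : Gr S V) : Type := FreeGroup S ⧸ Subgroup.normalClosure L.rel

/-- the associated system -/
def Gr.sys (L : Gr S V) : Sys (S × Bool) L.Grp V where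
  iv a := (a.1, !a.2)
  iv_iv a := by simp
  iv_ne a := by simp [Prod.ext_iff]
  gen a := QuotientGroup.mk (FreeGroup.mk [a])
  gen_iv a := by
    rw [← QuotientGroup.mk_inv, FreeGroup.inv_mk]
    rfl
  st := L.st
  st_fun := L.st_fun
  st_rev := L.st_rev

lemma Gr.prod_gen (L : Gr S V) (w : List (S × Bool)) :
    (w.map L.sys.gen).prod = QuotientGroup.mk (FreeGroup.mk w) := by
  induction w with
  | nil => rfl
  | cons a w ih =>
    rw [List.map_cons, List.prod_cons, ih]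
    change QuotientGroup.mk _ * _ = _
    rw [← QuotientGroup.mk_mul, FreeGroup.mul_mk]
    rfl

lemma Gr.rev (L : Gr S V) {w : List (S × Bool)} {v v' : V} (h : Reads L.st v w v') :
    Reads L.st v' (FreeGroup.invRev w) v := by
  induction w generalizing v with
  | nil => exact h.symm
  | cons a w ih =>
    obtain ⟨y, h1, h2⟩ := h
    rw [FreeGroup.invRev_cons]
    exact (ih h2).append ⟨v, L.st_rev h1, rfl⟩

lemma Gr.closed (L : Gr S V) (v : V) (r : List (S × Bool)) (h : Reads L.st v r v) :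
    (r.map L.sys.gen).prod = 1 := by
  rw [L.prod_gen, QuotientGroup.eq_one_iff]
  exact Subgroup.subset_normalClosure ⟨v, r, h, rfl⟩

theorem Gr.pre (L : Gr S V) [Nonempty S] {w : List (S × Bool)} (h : (w.map L.sys.gen).prod = 1) :
    Pre L.sys w := by
  let P : FreeGroup S → Prop := Quot.lift (Pre L.sys) (by
    rintro _ _ @⟨L₁, L₂, x, b⟩
    obtain ⟨v, v', hv⟩ := L.full (x, b)
    exact propext ⟨fun h => Pre.del L.closed (r := [(x, b), (x, !b)]) h
      ⟨v', hv, v, L.st_rev hv, rfl⟩, fun h => h.ins (x, b)⟩)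
  have del : ∀ u u' r v, Reads L.st v r v → P (u * FreeGroup.mk r * u') → P (u * u') := by
    rintro ⟨u⟩ ⟨u'⟩ r v hr h
    rw [FreeGroup.quot_mk_eq_mk, FreeGroup.quot_mk_eq_mk] at h ⊢
    rw [FreeGroup.mul_mk, FreeGroup.mul_mk, List.append_assoc] at h
    rw [FreeGroup.mul_mk]
    exact Pre.del L.closed h hr
  let M : Subgroup (FreeGroup S) :=
    { carrier := {g | ∀ u u', P (u * g * u') ↔ P (u * u')}
      one_mem' := by simp
      mul_mem' := fun {a b} ha hb u u' => by rw [← mul_assoc, hb, ha]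
      inv_mem' := fun {a} ha u u' => by rw [← ha (u * a⁻¹) u']; simp }
  have hM : M.Normal := ⟨fun g hg c u u' => by
    have := hg (u * c) (c⁻¹ * u')
    simpa [mul_assoc] using this⟩
  have hle : Subgroup.normalClosure L.rel ≤ M := by
    refine Subgroup.normalClosure_le_normal ?_
    rintro _ ⟨v, r, hr, rfl⟩ u u'
    refine ⟨del u u' r v hr, fun h => del _ u' _ v (L.rev hr) ?_⟩
    rwa [← FreeGroup.inv_mk, mul_inv_cancel_right]
  rw [L.prod_gen, QuotientGroup.eq_one_iff] at h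
  have := (hle h 1 1).mpr (by
    obtain ⟨s⟩ := ‹Nonempty S›
    obtain ⟨v, -, -⟩ := L.full (s, true)
    rw [mul_one]
    exact pre_nil (s, true) v)
  rw [one_mul, mul_one] at this
  exact this

lemma lip_prod {gen : A → G} {φ : G → ℤ} (h : Lip gen φ) (w : List A) (y : G) :
    |φ (y * (w.map gen).prod) - φ y| ≤ w.length := by
  induction w generalizing y with
  | nil => simp
  | cons a w ih =>
    have h1 := ih (y * gen a)
    have h2 := h y a
    rw [List.map_cons, List.prod_cons, ← mul_assoc, List.length_cons]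
    push_cast
    rw [abs_le] at h1 h2 ⊢
    constructor <;> linarith [h1.1, h1.2, h2.1, h2.2]

/-- The graphical small cancellation theorem. -/
theorem Gr.main (L : Gr S V) [Nonempty S] [Finite V] {l : ℕ} (hl0 : 0 < l) (hl : Piece L.sys l)
    (hg : Girth L.sys (12 * l)) :
    (∃ (θ : V → L.Grp) (root : V → V),
      (∀ v a v', L.st v a v' → θ v' = θ v * L.sys.gen a ∧ root v' = root v) ∧
      ∀ v v', root v = root v' → θ v = θ v' → v = v') ∧
    ∃ C : ℕ, ∀ w : List (S × Bool), (w.map L.sys.gen).prod = 1 → ∀ φ ψ, Lip L.sys.gen φ →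
      Lip L.sys.gen ψ → |Iw L.sys.gen (form L.sys.gen φ ψ) 1 w| ≤ C * (w.length + 1) := by
  let r : Setoid V := ⟨fun v v' => ∃ w, Reads L.st v w v', fun v => ⟨[], rfl⟩,
    fun ⟨_, h⟩ => ⟨_, L.rev h⟩, fun ⟨_, h⟩ ⟨_, h'⟩ => ⟨_, h.append h'⟩⟩
  let root : V → V := fun v => (Quotient.mk r v).out
  have hp : ∀ v, ∃ w, Reads L.st (root v) w v := fun v => Quotient.mk_out (s := r) v
  choose p hp using hp
  let θ : V → L.Grp := fun v => ((p v).map L.sys.gen).prod
  have inv : ∀ w : List (S × Bool),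
      ((FreeGroup.invRev w).map L.sys.gen).prod = ((w.map L.sys.gen).prod)⁻¹ := by
    intro w
    rw [L.prod_gen, L.prod_gen, ← FreeGroup.inv_mk, QuotientGroup.mk_inv]
  have h1 : ∀ v a v', L.st v a v' → θ v' = θ v * L.sys.gen a ∧ root v' = root v := by
    intro v a v' h
    have e : root v' = root v :=
      congrArg Quotient.out (Quotient.sound (s := r) ⟨[a], v', h, rfl⟩).symm
    refine ⟨?_, e⟩
    have := L.closed _ _ (((hp v).append (w' := [a]) ⟨v', h, rfl⟩).append (e ▸ L.rev (hp v')))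
    rw [List.map_append, List.map_append, List.prod_append, List.prod_append, inv,
      mul_inv_eq_one] at this
    simpa [θ] using this.symm
  refine ⟨⟨θ, root, h1, fun v v' e1 e2 => ?_⟩, ?_⟩
  · refine Pre.inj hl0 hl hg (L.pre ?_) ((L.rev (hp v)).append (e1 ▸ hp v'))
    rw [List.map_append, List.prod_append, inv]
    exact inv_mul_eq_one.mpr e2
  · obtain ⟨R, hR⟩ := (Set.finite_range fun v => (p v).length).bddAbove
    refine ⟨(2 * R + 1) * (26 * l), fun w hw φ ψ hφ hψ => ?_⟩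
    have := Pre.iso hl0 hl hg θ (fun v a v' h => (h1 v a v' h).1) R
      (fun φ hφ v y => (lip_prod hφ (p v) y).trans (by exact_mod_cast hR ⟨v, rfl⟩)) (L.pre hw) hφ hψ
    exact_mod_cast this

end Vale.Agent.P194
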