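import Mathlib

namespace Vale.Agent.P194
open Polynomial

lemma sum_eval_zero {F : Type} [Field F] [Fintype F] (p : F[X])
    (h : p.natDegree < Fintype.card F - 1) : ∑ c : F, p.eval c = 0 := by
  simp_rw [Polynomial.eval_eq_sum_range]
  rw [Finset.sum_comm]
  refine Finset.sum_eq_zero fun i hi => ?_
  rw [← Finset.mul_sum, FiniteField.sum_pow_lt_card_sub_one F i
    (lt_of_le_of_lt (Nat.lt_succ_iff.mp (Finset.mem_range.mp hi)) h), mul_zero]

lemma line_sum {F ι : Type} [Field F] [Fintype F] [CharP F 2] [Fintype ι] {w r : ℕ}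
    (hF : Fintype.card F = (2 ^ w) ^ r) (hk : Fintype.card ι ≤ 2 ^ w) (hw : 0 < w)
    (e : ι → ℕ) (he : ∀ i, e i < (2 ^ w) ^ r) {j : ℕ} (hj : j < r)
    (h0 : ∀ i, e i / (2 ^ w) ^ j % 2 ^ w = 0) (b u : ι → F) :
    ∑ c : F, ∏ i, (b i + c * u i) ^ e i = 0 := by
  obtain ⟨a, rfl⟩ : ∃ a, r = j + 1 + a := ⟨r - (j + 1), by omega⟩
  set Q := 2 ^ w with hQ
  have hQ2 : 2 ≤ Q := by
    rw [hQ]
    calc 2 = 2 ^ 1 := rfl
      _ ≤ 2 ^ w := Nat.pow_le_pow_right two_pos hw
  let e' : ι → ℕ := fun i => e i % Q ^ j * Q ^ a + e i / Q ^ (j + 1)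
  have h1 : ∀ i, e i * Q ^ a = e i % Q ^ j * Q ^ a + Q ^ (j + 1 + a) * (e i / Q ^ (j + 1)) := by
    intro i
    have a1 := Nat.mod_add_div (e i) (Q ^ j)
    have a2 := Nat.mod_add_div (e i / Q ^ j) Q
    rw [h0 i, zero_add, Nat.div_div_eq_div_mul, ← pow_succ] at a2
    conv_lhs => rw [← a1, ← a2]
    ring
  have h2 : ∀ i, e' i + 1 ≤ Q ^ (j + a) := by
    intro i
    have a1 : e i % Q ^ j + 1 ≤ Q ^ j := Nat.mod_lt _ (by positivity)
    have a2 : e i / Q ^ (j + 1) < Q ^ a :=
      Nat.div_lt_of_lt_mul (by rw [← pow_add]; exact he i)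
    have := Nat.mul_le_mul_right (Q ^ a) a1
    simp only [e']
    rw [pow_add Q j a]
    nlinarith
  apply (iterateFrobenius F 2 (w * a)).injective
  rw [map_zero, map_sum]
  have h3 : ∀ c : F, iterateFrobenius F 2 (w * a) (∏ i, (b i + c * u i) ^ e i) =
      (∏ i, (C (b i) + X * C (u i)) ^ e' i).eval c := by
    intro c
    rw [map_prod, Polynomial.eval_prod]
    refine Finset.prod_congr rfl fun i _ => ?_
    rw [iterateFrobenius_def, pow_mul, ← hQ, ← pow_mul, h1, pow_add, pow_mul _ (Q ^ (j + 1 + a)),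
      ← hF, FiniteField.pow_card]
    simp only [e', pow_add, eval_pow, eval_add, eval_C, eval_mul, eval_X]
  simp_rw [h3]
  refine sum_eval_zero _ (lt_of_le_of_lt (Polynomial.natDegree_prod_le _ _) ?_)
  have h4 : ∀ i ∈ Finset.univ, ((C (b i) + X * C (u i)) ^ e' i).natDegree ≤ Q ^ (j + a) - 1 := by
    intro i _
    refine Polynomial.natDegree_pow_le.trans ?_
    have : (C (b i) + X * C (u i)).natDegree ≤ 1 := by compute_degree
    have := h2 i
    nlinarith [Nat.mul_le_mul_left (e' i) ‹(C (b i) + X * C (u i)).natDegree ≤ 1›,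
      Nat.le_sub_one_of_lt this]
  refine lt_of_le_of_lt (Finset.sum_le_card_nsmul _ _ _ h4) ?_
  rw [hF, smul_eq_mul, Finset.card_univ, show j + 1 + a = j + a + 1 by ring, pow_succ]
  have h5 : 1 ≤ Q ^ (j + a) := Nat.one_le_pow _ _ (by omega)
  obtain ⟨t, ht⟩ : ∃ t, Q ^ (j + a) = t + 1 := ⟨_, (Nat.sub_add_cancel h5).symm⟩
  rw [ht, Nat.add_sub_cancel]
  have := Nat.mul_le_mul_right t hk
  have : (t + 1) * Q = Q * t + Q := by ring
  omega

lemma mono_indep {F K ι : Type} [Field F] [Fintype F] [Field K] [Algebra F K] [Fintype ι] {q : ℕ}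
    (hq : Fintype.card F = q) :
    LinearIndependent K fun (e : ι → Fin q) (x : ι → F) => algebraMap F K (∏ i, x i ^ (e i : ℕ)) := by
  classical
  let m : (ι → Fin q) → ((ι → F) →* K) := fun e =>
    { toFun := fun x => algebraMap F K (∏ i, x i ^ (e i : ℕ))
      map_one' := by simp
      map_mul' := fun x y => by simp [mul_pow, Finset.prod_mul_distrib] }
  refine (linearIndependent_monoidHom (ι → F) K).comp m fun e e' h => ?_
  funext i
  have h1 : (X : F[X]) ^ (e i : ℕ) = X ^ (e' i : ℕ) := by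
    refine Polynomial.eq_of_natDegree_lt_card_of_eval_eq _ _ Function.injective_id
      (fun y => ?_) (by simp [hq])
    have h2 := (algebraMap F K).injective (DFunLike.congr_fun h (Function.update (1 : ι → F) i y))
    have h3 : ∀ e : ι → Fin q, ∏ l, Function.update (1 : ι → F) i y l ^ (e l : ℕ) = y ^ (e i : ℕ) := by
      intro e
      rw [Finset.prod_eq_single i] <;> simp +contextual [Function.update_of_ne]
    simpa [h3] using h2
  have := congrArg Polynomial.natDegree h1
  simpa [Fin.ext_iff] using this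

lemma many_good {ι : Type} [Fintype ι] [DecidableEq ι] {Q : ℕ} (hQ : 0 < Q) :
    ∃ T : Finset (ι → Fin (Q ^ (Q ^ Fintype.card ι))),
      (Q ^ (Q ^ Fintype.card ι)) ^ Fintype.card ι ≤ 2 * T.card ∧
      ∀ e ∈ T, ∃ j < Q ^ Fintype.card ι, ∀ i, (e i : ℕ) / Q ^ j % Q = 0 := by
  classical
  have : NeZero Q := ⟨hQ.ne'⟩
  set N := Q ^ Fintype.card ι with hN
  let dg : (ι → Fin (Q ^ N)) → Fin N → ι → Fin Q := fun e j i => finFunctionFinEquiv.symm (e i) j
  have hdg : Function.Injective dg := fun e e' h => funext fun i =>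
    finFunctionFinEquiv.symm.injective (funext fun j => congrFun (congrFun h j) i)
  refine ⟨Finset.univ.filter fun e => ∃ j, dg e j = 0, ?_, fun e he => ?_⟩
  · have h1 := Finset.card_filter_add_card_filter_not (s := Finset.univ) fun e => ∃ j, dg e j = 0
    have h2 : (Finset.univ.filter fun e => ¬ ∃ j, dg e j = 0).card ≤ (N - 1) ^ N := by
      have := Finset.card_le_card_of_injOn (s := Finset.univ.filter fun e => ¬ ∃ j, dg e j = 0)
        (t := Fintype.piFinset fun _ : Fin N => Finset.univ.erase (0 : ι → Fin Q)) dg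
        (fun e he => by
          simp only [Finset.coe_filter, Finset.mem_univ, true_and, Set.mem_ofPred_eq,
            not_exists] at he
          simpa using he) hdg.injOn
      simpa [Finset.card_erase_of_mem, hN] using this
    have h3 : 2 * (N - 1) ^ N ≤ N ^ N := by
      have hN1 : 1 ≤ N := Nat.one_le_pow _ _ hQ
      obtain ⟨t, ht⟩ : ∃ t, N = t + 1 := ⟨_, (Nat.sub_add_cancel hN1).symm⟩
      have := pow_add_mul_le_add_pow (a := t) (b := 1) (Nat.zero_le _) (Nat.zero_le _) (t + 1)
      rw [ht, Nat.add_sub_cancel]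
      rw [Nat.add_sub_cancel] at this
      refine le_trans ?_ this
      simp only [Nat.cast_id]
      rw [pow_succ]
      nlinarith [Nat.zero_le (t ^ t)]
    have h4 : (Q ^ N) ^ Fintype.card ι = N ^ N := by
      rw [← pow_mul, mul_comm, pow_mul]
    rw [Finset.card_univ, Fintype.card_fun, Fintype.card_fin, h4] at h1
    omega
  · obtain ⟨j, hj⟩ := (Finset.mem_filter.mp he).2
    exact ⟨j, j.2, fun i => congrArg Fin.val (congrFun hj i)⟩

lemma fin_order {F K : Type} [Field F] [Finite F] [Field K] [Algebra F K] [Algebra.IsAlgebraic F K]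
    (x : Kˣ) : IsOfFinOrder x := by
  have h1 := IntermediateField.adjoin.finiteDimensional
    (Algebra.IsIntegral.isIntegral (R := F) (x : K))
  have h2 : Finite (IntermediateField.adjoin F {(x : K)}) := Module.finite_of_finite F
  let y : IntermediateField.adjoin F {(x : K)} :=
    ⟨x, IntermediateField.mem_adjoin_simple_self F _⟩
  have hy : y ≠ 0 := fun h => x.ne_zero (congrArg Subtype.val h)
  obtain ⟨n, hn, h⟩ := isOfFinOrder_iff_pow_eq_one.mp (isOfFinOrder_of_finite (Units.mk0 y hy))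
  refine isOfFinOrder_iff_pow_eq_one.mpr ⟨n, hn, Units.ext ?_⟩
  have := congrArg (fun z : (IntermediateField.adjoin F {(x : K)})ˣ => ((z : _) : K)) h
  simpa [y] using this

lemma select {K Ω T : Type} [Field K] [Infinite K] [Fintype Ω] [Fintype T] (f : T → Ω → K)
    (hf : LinearIndependent K f) (hc : Fintype.card Ω = 2 * Fintype.card T) :
    ∃ (S : Type) (_ : Fintype S) (_ : DecidableEq S) (e : S × Bool ≃ Ω) (lam : Kˣ)
      (M : Matrix T S K), lam ^ 2 ≠ 1 ∧
      ∀ s s', ∑ t, (f t (e (s, true)) + lam * f t (e (s, false))) * M t s' =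
        if s = s' then 1 else 0 := by
  classical
  let A : Matrix Ω T K := Matrix.of fun x t => f t x
  have h1 : A.rank = Fintype.card T := by
    rw [← Matrix.rank_transpose]
    exact LinearIndependent.rank_matrix (M := A.transpose) hf
  obtain ⟨S, a, ha, h2, h3⟩ := exists_linearIndependent' K A.row
  have : Fintype S := Fintype.ofInjective a ha
  have h4 : Fintype.card S = Fintype.card T := by
    rw [← h1, Matrix.rank_eq_finrank_span_row, ← h2,
      linearIndependent_iff_card_eq_finrank_span.mp h3, Set.finrank]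
  have h5 : Fintype.card S = Fintype.card {x // x ∉ Set.range a} := by
    rw [Fintype.card_subtype_compl, Set.card_range_of_injective ha]
    omega
  let b := Fintype.equivOfCardEq h5
  let E : S × Bool → Ω := fun p => if p.2 then a p.1 else b p.1
  have hE : Function.Bijective E := by
    rw [Fintype.bijective_iff_injective_and_card]
    refine ⟨?_, by simp; omega⟩
    rintro ⟨s, _ | _⟩ ⟨s', _ | _⟩ h <;> simp only [E, if_true, Bool.false_eq_true, if_false] at h
    · rw [b.injective (Subtype.ext h)]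
    · exact absurd ⟨s', h.symm⟩ (b s).2
    · exact absurd ⟨s, h⟩ (b s').2
    · rw [ha h]
  let g := Fintype.equivOfCardEq h4
  let P : Matrix S S K := Matrix.of fun s s' => f (g s') (a s)
  let N : Matrix S S K := Matrix.of fun s s' => f (g s') (b s)
  have hP : P.det ≠ 0 := by
    refine (Matrix.isUnit_iff_isUnit_det P).mp (Matrix.linearIndependent_rows_iff_isUnit.mp ?_)
      |>.ne_zero
    exact h3.map' (LinearEquiv.funCongrLeft K K g).toLinearMap (LinearEquiv.ker _)
  let p : K[X] := (P.map C + (X : K[X]) • N.map C).det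
  have hp : ∀ c : K, p.eval c = (P + c • N).det := by
    intro c
    have := RingHom.map_det (Polynomial.evalRingHom c) (P.map C + (X : K[X]) • N.map C)
    rw [Polynomial.coe_evalRingHom] at this
    rw [this]
    congr 1
    ext s s'
    simp only [RingHom.mapMatrix_apply, Matrix.map_apply, Matrix.add_apply, Matrix.smul_apply,
      smul_eq_mul, coe_evalRingHom, eval_add, eval_C, eval_mul, eval_X]
  have hp0 : p * X * (X ^ 2 - 1) ≠ 0 := by
    refine mul_ne_zero (mul_ne_zero (fun h => hP ?_) X_ne_zero) ?_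
    · simpa [h] using (hp 0).symm
    · exact Polynomial.X_pow_sub_C_ne_zero two_pos 1
  obtain ⟨c, hc⟩ : ∃ c : K, (p * X * (X ^ 2 - 1)).eval c ≠ 0 := by
    by_contra h
    push Not at h
    exact hp0 (Polynomial.funext (by simpa using h))
  simp only [eval_mul, eval_X, eval_sub, eval_pow, eval_one, ne_eq, mul_eq_zero, not_or] at hc
  obtain ⟨⟨c1, c2⟩, c3⟩ := hc
  refine ⟨S, inferInstance, inferInstance, Equiv.ofBijective E hE, Units.mk0 c c2,
    Matrix.of fun t s' => (P + c • N)⁻¹ (g.symm t) s', fun h => c3 ?_, fun s s' => ?_⟩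
  · rw [sub_eq_zero]
    simpa using congrArg (fun z : Kˣ => (z : K)) h
  · have := congrFun (congrFun (Matrix.mul_nonsing_inv (P + c • N)
      (isUnit_iff_ne_zero.mpr (hp c ▸ c1))) s) s'
    rw [Matrix.mul_apply, Matrix.one_apply] at this
    rw [← this, ← Equiv.sum_comp g]
    simp [E, P, N]

/-- The code-theoretic input. -/
theorem exists_code (ι : Type) [Fintype ι] [Nonempty ι] :
    ∃ (F : Type) (_ : Field F) (_ : Fintype F) (_ : CharP F 2) (K : Type) (_ : Field K)
      (_ : CharP K 2) (S : Type) (_ : Fintype S) (_ : DecidableEq S) (e : S × Bool ≃ (ι → F))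
      (lam : Kˣ) (w : (ι → F) → S → K), IsOfFinOrder lam ∧ lam ^ 2 ≠ 1 ∧
      (∀ (b u : ι → F) s, ∑ c : F, w (b + c • u) s = 0) ∧
      ∀ s s', w (e (s, true)) s' + lam * w (e (s, false)) s' = if s = s' then 1 else 0 := by
  classical
  set k := Fintype.card ι with hk
  have hk0 : 0 < k := Fintype.card_pos
  let F := GaloisField 2 (k * (2 ^ k) ^ k)
  have : Fintype F := Fintype.ofFinite F
  have hF : Fintype.card F = (2 ^ k) ^ (2 ^ k) ^ k := by
    rw [← Nat.card_eq_fintype_card, GaloisField.card _ _ (by positivity), pow_mul]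
  obtain ⟨T, h1, h2⟩ := many_good (ι := ι) (Q := 2 ^ k) (by positivity)
  obtain ⟨m, hm⟩ : ∃ m, ((2 ^ k) ^ (2 ^ k) ^ k) ^ k = 2 * m :=
    (dvd_pow_self 2 hk0.ne').trans ((dvd_pow_self _ (by positivity)).trans
      (dvd_pow_self _ hk0.ne'))
  obtain ⟨T', h3, h4⟩ := Finset.exists_subset_card_eq (s := T) (n := m) (by
    have h1' : ((2 ^ k) ^ (2 ^ k) ^ k) ^ k ≤ 2 * T.card := h1
    omega)
  let K := AlgebraicClosure F
  obtain ⟨S, _, _, e, lam, M, h5, h6⟩ := select (K := K) _
    ((mono_indep (K := K) (ι := ι) hF).comp (fun t : T' => t.1) Subtype.val_injective)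
    (by rw [Fintype.card_fun, hF, Fintype.card_coe, h4, hm])
  refine ⟨F, inferInstance, inferInstance, inferInstance, K, inferInstance, inferInstance, S,
    inferInstance, inferInstance, e, lam,
    fun x s => ∑ t : T', algebraMap F K (∏ i, x i ^ (t.1 i : ℕ)) * M t s, fin_order (F := F) lam,
    h5, fun b u s => ?_, fun s s' => ?_⟩
  · rw [Finset.sum_comm]
    refine Finset.sum_eq_zero fun t _ => ?_
    obtain ⟨j, hj, h7⟩ := h2 t.1 (h3 t.2)
    have := line_sum hF (Nat.lt_two_pow_self.le) hk0 (fun i => (t.1 i : ℕ)) (fun i => (t.1 i).2)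
      hj h7 b u
    rw [← Finset.sum_mul, ← map_sum]
    simp only [Pi.add_apply, Pi.smul_apply, smul_eq_mul]
    rw [this, map_zero, zero_mul]
  · rw [← h6, Finset.mul_sum, ← Finset.sum_add_distrib]
    refine Finset.sum_congr rfl fun t _ => ?_
    simp only [Function.comp_apply]
    ring

end Vale.Agent.P194
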