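import Vale.Agent.P194.Sub
import Vale.Agent.P194.Rand
import Vale.Agent.P194.Code

namespace Vale.Agent.P194

theorem exists_base {F D K S : Type} [Field F] [Fintype F] [CharP F 2] [AddCommGroup D]
    [Module F D] [Fintype D] [Field K] [Fintype S] (hD : Fintype.card D = Fintype.card F ^ 883)
    (e : S × Bool ≃ F × D) (lam : Kˣ) (hlam : IsOfFinOrder lam) (w : F × D → S → K)
    (hw : ∀ (b u : D) s, ∑ c : F, w (c, b + c • u) s = 0) :
    ∃ (V : Type) (_ : Finite V) (L : Gr S V) (l : ℕ) (γ : V → S × Bool → K) (J : V → Option S),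
      Piece L.sys l ∧ Girth L.sys (12 * (3 * l + 4)) ∧
      (∀ v a v', L.st v a v' → J v' = J v) ∧
      (∀ v s v', L.st v (s, true) v' → γ v' (s, false) = lam * γ v (s, true)) ∧
      (∀ v a, (∀ v', ¬ L.st v a v') → γ v a = 0) ∧
      (∀ v t, ∑ a, γ v a * w (e a) t = 0) ∧
      ∀ j s, ∃ v v', J v = j ∧ L.st v (s, true) v' ∧ γ v (s, true) ≠ 0 := by
  classical
  let C := Subgroup.zpowers lam
  have : Fintype C := (finite_zpowers.mpr hlam).fintype
  let lc : C := ⟨lam, Subgroup.mem_zpowers _⟩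
  obtain ⟨q, hq⟩ : ∃ q, q = Fintype.card F := ⟨_, rfl⟩
  have q2 : 2 ≤ q := hq ▸ Fintype.one_lt_card
  obtain ⟨m, hm⟩ : ∃ m, m = (Fintype.card (Option S) * Fintype.card C * q * q ^ 192) ^ 2 :=
    ⟨_, rfl⟩
  obtain ⟨H, _, ⟨x0⟩, T, hT, hH, hg⟩ := exists_girth F (12 * (3 * (3 * m) + 4))
  let nb : Option S × H × C × F → F × F × Bool → Option S × H × C × F := fun y a =>
    (y.1, T (y.2.2.2 + a.1) y.2.1, y.2.2.1 * (if a.2.2 then lc else lc⁻¹), y.2.2.2 + a.1 - a.2.1)
  obtain ⟨ρ, hρ⟩ := random (D := D) nb (m := m) (by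
    have h1 : Fintype.card (F × F × Bool) ≤ q ^ 3 := by
      simp only [Fintype.card_prod, Fintype.card_bool, ← hq]
      calc q * (q * 2) ≤ q * (q * q) := by gcongr
        _ = q ^ 3 := by ring
    have h2 : m < q ^ m := Nat.lt_pow_self q2
    simp only [Fintype.card_prod (Option S), Fintype.card_prod H, Fintype.card_prod C, hD, ← hq]
      at hH ⊢
    calc _ ≤ (Fintype.card (Option S) * (q ^ (4 * (12 * (3 * (3 * m) + 4))) *
          (Fintype.card C * q)) * (q ^ 3) ^ (3 * m)) ^ 2 := by gcongr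
      _ = (Fintype.card (Option S) * Fintype.card C * q * q ^ 192) ^ 2 * q ^ (882 * m) := by ring
      _ < q ^ m * q ^ (882 * m) := by
        rw [← hm]
        exact Nat.mul_lt_mul_of_pos_right h2 (by positivity)
      _ = _ := by ring)
  let On : (Option S × H × C × F) × D → S × Bool → Prop := fun v a =>
    (e a).2 = v.2 + (e a).1 • ρ v.1
  let dt : S × Bool → F × F × Bool := fun a => ((e a).1, (e (a.1, !a.2)).1, a.2)
  let L : Gr S ((Option S × H × C × F) × D) :=
    { st := fun v a v' => On v a ∧ v'.1 = nb v.1 (dt a) ∧ On v' (a.1, !a.2)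
      st_fun := by
        rintro v a ⟨y, b⟩ ⟨y', b'⟩ ⟨-, rfl, h⟩ ⟨-, rfl, h'⟩
        exact Prod.ext rfl (add_right_cancel (h.symm.trans h'))
      st_rev := by
        rintro ⟨⟨j, x, c, o⟩, b⟩ ⟨s, z⟩ v' ⟨h1, h2, h3⟩
        refine ⟨h3, ?_, by simpa using h1⟩
        rw [h2]
        cases z <;> simp [nb, dt, hT]
      full := fun a => ⟨((none, x0, 1, 0), (e a).2 - (e a).1 • ρ (none, x0, 1, 0)),
        (nb (none, x0, 1, 0) (dt a), (e (a.1, !a.2)).2 -
          (e (a.1, !a.2)).1 • ρ (nb (none, x0, 1, 0) (dt a))), by simp [On], rfl, by simp [On]⟩ }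
  have ex : ∀ v a, On v a → ∃ v', L.st v a v' := fun v a h =>
    ⟨(nb v.1 (dt a), (e (a.1, !a.2)).2 - (e (a.1, !a.2)).1 • ρ (nb v.1 (dt a))), h, rfl,
      by simp [On]⟩
  have dist : ∀ v a a', On v a → On v a' → a ≠ a' → (e a).1 ≠ (e a').1 := fun v a a' h h' hne e1 =>
    hne (e.injective (Prod.ext e1 (by rw [h, h', e1])))
  have gir : ∀ n (v : ℕ → (Option S × H × C × F) × D) (a : ℕ → S × Bool), 0 < n →
      (∀ i < n, L.st (v i) (a i) (v (i + 1))) →
      (∀ i, i + 1 < n → a (i + 1) ≠ ((a i).1, !(a i).2)) → (v n).1.2.1 = (v 0).1.2.1 →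
      12 * (3 * (3 * m) + 4) ≤ n := by
    intro n v a h0 hst hr hc
    by_contra hn
    refine hg n (fun i => (v i).1.2.2.2 + (e (a i)).1) (fun i => (v i).1.2.1) h0 (by omega)
      (fun i hi => by rw [(hst i hi).2.1]) (fun i hi h => ?_) hc
    refine dist _ _ _ (hst _ hi).1 (hst i (by omega)).2.2 (hr i hi) ?_
    simp only [(hst i (by omega)).2.1, nb, dt] at h
    linear_combination h
  refine ⟨_, inferInstance, L, 3 * m, fun v a => if On v a then ((v.1.2.2.1 : Kˣ) : K) else 0,
    fun v => v.1.1, fun v v' a hst hr => ?_, fun n v a h0 hst hr hc => gir n v a h0 hst hr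
      (by rw [hc]), fun v a v' h => (congrArg Prod.fst h.2.1 :), fun v s v' h => ?_,
    fun v a h => if_neg fun h' => ?_, fun v t => ?_, fun j s => ?_⟩
  · change ∀ i ≤ 3 * m, L.st (v i) (a i) (v (i + 1)) ∧ L.st (v' i) (a i) (v' (i + 1)) at hst
    change ∀ i < 3 * m, a (i + 1) ≠ ((a i).1, !(a i).2) at hr
    have inj : ∀ v : ℕ → (Option S × H × C × F) × D, (∀ i ≤ 3 * m, L.st (v i) (a i) (v (i + 1))) →
        Set.InjOn (fun i => (v (i + 1)).1) (Finset.range (3 * m)) := by
      intro v h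
      have : ∀ i i', i < i' → i' < 3 * m → (v (i + 1)).1 ≠ (v (i' + 1)).1 := by
        intro i i' h1 h2 he
        have := gir (i' - i) (fun t => v (i + 1 + t)) (fun t => a (i + 1 + t)) (by omega)
          (fun t _ => h (i + 1 + t) (by omega)) (fun t _ => hr (i + 1 + t) (by omega))
          (by rw [show i + 1 + (i' - i) = i' + 1 by omega, ← he])
        omega
      intro i hi i' hi' he
      by_contra hne
      rcases lt_or_gt_of_ne hne with h1 | h1
      · exact this i i' h1 (by simpa using hi') he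
      · exact this i' i h1 (by simpa using hi) he.symm
    obtain ⟨i, hi, he⟩ := hρ (fun i => (v (i + 1)).1) (fun i => (v' (i + 1)).1)
      (fun i hi => ⟨_, (hst (i + 1) (by omega)).1.2.1⟩)
      (fun i hi => ⟨_, (hst (i + 1) (by omega)).2.2.1⟩) (inj v fun i hi => (hst i hi).1)
      (inj v' fun i hi => (hst i hi).2) (fun i hi => by
        have a1 := (hst (i + 1) hi).1.1
        have a2 := (hst i hi.le).1.2.2
        have a3 := (hst (i + 1) hi).2.1
        have a4 := (hst i hi.le).2.2.2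
        refine smul_right_injective D (sub_ne_zero.mpr (dist _ _ _ a1 a2 (hr i hi))) ?_
        simp only [On] at a1 a2 a3 a4
        simp only [sub_smul]
        linear_combination (norm := abel1) a2 - a1 - a4 + a3)
    refine L.sys.back (i + 1) (fun t ht => hst t (by omega)) (Prod.ext he ?_)
    have a2 := (hst i hi.le).1.2.2
    have a4 := (hst i hi.le).2.2.2
    simp only [On] at a2 a4
    rw [he] at a2
    exact add_right_cancel (a2.symm.trans a4)
  · simp only
    rw [if_pos h.1, if_pos (show On v' (s, false) from h.2.2), h.2.1]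
    simp [nb, dt, lc, mul_comm]
  · obtain ⟨v', h''⟩ := ex v a h'
    exact h v' h''
  · rw [← e.symm.sum_comp, Fintype.sum_prod_type]
    simp only [On, Equiv.apply_symm_apply, ite_mul, zero_mul, Finset.sum_ite_eq',
      Finset.mem_univ, if_true]
    rw [← Finset.mul_sum, hw, mul_zero]
  · have h : On ((j, x0, 1, 0), (e (s, true)).2 - (e (s, true)).1 • ρ (j, x0, 1, 0)) (s, true) := by
      simp [On]
    obtain ⟨v', h'⟩ := ex _ _ h
    exact ⟨_, v', rfl, h', by simp only [if_pos h]; exact Units.ne_zero _⟩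

theorem exists_design :
    ∃ (K : Type) (_ : Field K) (_ : CharP K 2) (S : Type) (_ : Fintype S) (_ : DecidableEq S)
      (_ : Nonempty S) (V : Type) (_ : Finite V) (L : Gr S V) (l : ℕ) (lam : K)
      (w : S × Bool → S → K) (γ : V → S × Bool → K) (J : V → Option S) (z : S → V),
      0 < l ∧ Piece L.sys l ∧ Girth L.sys (12 * l) ∧
      (∀ v a v', L.st v a v' → J v' = J v) ∧
      (∀ v s v', L.st v (s, true) v' → γ v' (s, false) = lam * γ v (s, true)) ∧
      (∀ v a, (∀ v', ¬ L.st v a v') → γ v a = 0) ∧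
      (∀ v, (∀ s, v ≠ z s) → ∀ t, ∑ a, γ v a * w a t = 0) ∧
      (∀ s, J (z s) = some s ∧ ∃ κ ≠ 0, ∀ t, ∑ a, γ (z s) a * w a t = if s = t then κ else 0) ∧
      ∃ v s, J v = none ∧ γ v (s, true) ≠ 0 := by
  classical
  obtain ⟨F, _, _, _, K, _, _, S, _, _, e, lam, w, h1, -, h2, h3⟩ := exists_code (Option (Fin 883))
  let E : (Option (Fin 883) → F) ≃ F × (Fin 883 → F) := Equiv.piOptionEquivProd
  obtain ⟨V, _, L, l, γ, J, k1, k2, k3, k4, k5, k6, k7⟩ := exists_base (D := Fin 883 → F)
    (by simp) (e.trans E) lam h1 (fun x => w (E.symm x)) (fun b u s => by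
      rw [← h2 (E.symm (0, b)) (E.symm (1, u)) s]
      refine Finset.sum_congr rfl fun c _ => ?_
      congr 1
      funext i
      cases i <;> simp [E])
  simp only [Equiv.trans_apply, Equiv.symm_apply_apply] at k6
  choose X Y j1 j2 j3 using fun s => k7 (some s) s
  let en : S × Bool → V := fun a => if a.2 then X a.1 else Y a.1
  have hen : ∀ a, L.st (en a) a (en (a.1, !a.2)) := by
    rintro ⟨s, _ | _⟩
    · exact L.st_rev (j2 s)
    · exact j2 s
  have hJe : ∀ a, J (en a) = some a.1 := by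
    rintro ⟨s, _ | _⟩
    · exact (k3 _ _ _ (j2 s)).trans (j1 s)
    · exact j1 s
  have hg := sub_girth (hen := hen) k3 hJe k2
  have hS : Nonempty S := ⟨(e.symm 0).1⟩
  refine ⟨K, inferInstance, inferInstance, S, inferInstance, inferInstance, hS, V ⊕ S,
    inferInstance, L.sub en hen, 3 * l + 4, lam, fun a => w (e a),
    Sum.elim γ fun s a => if a.1 = s then (if a.2 then 1 else (lam : K)) * γ (X s) (s, true) else 0,
    Sum.elim J some, Sum.inr, by omega, sub_piece k3 hJe k1 hg (by omega), hg,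
    sub_J k3 hJe, ?_, ?_, ?_, fun s => ⟨rfl, _, j3 s, fun t => ?_⟩, ?_⟩
  · rintro (v | s') s (v' | s'') h
    · exact k4 _ _ _ h.1
    · obtain ⟨rfl, rfl⟩ := h
      simp [en]
    · obtain ⟨rfl, rfl⟩ := h
      simpa [en] using k4 _ _ _ (j2 s)
    · exact h.elim
  · rintro (v | s) a h
    · refine k5 v a fun v' h' => ?_
      by_cases h4 : v = en a
      · exact h (Sum.inr a.1) ⟨rfl, h4⟩
      · exact h (Sum.inl v') ⟨h', h4⟩
    · exact if_neg fun h' => h (Sum.inl _) ⟨h', rfl⟩
  · rintro (v | s) h t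
    · exact k6 v t
    · exact absurd rfl (h s)
  · rw [Fintype.sum_prod_type, Finset.sum_eq_single s (by simp +contextual) (by simp)]
    have := h3 s t
    simp only [Sum.elim_inr, if_true, Fintype.sum_bool, Bool.false_eq_true, if_false]
    split_ifs at this ⊢
    · linear_combination γ (X s) (s, true) * this
    · linear_combination γ (X s) (s, true) * this
  · obtain ⟨s⟩ := hS
    obtain ⟨v, -, h4, -, h5⟩ := k7 none s
    exact ⟨Sum.inl v, s, h4, h5⟩

end Vale.Agent.P194
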