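import Vale.Agent.P194.Count

namespace Vale.Agent.P194
open Equiv Equiv.Perm

set_option linter.unusedSectionVars false

/-- reading a word along a path -/
def Reads {A Z : Type} (E : Z → A → Z → Prop) : Z → List A → Z → Prop
  | z, [], z' => z = z'
  | z, a :: w, z'' => ∃ z', E z a z' ∧ Reads E z' w z''

lemma Reads.append {A Z : Type} {E : Z → A → Z → Prop} {w w' : List A} {z z' z'' : Z}
    (h : Reads E z w z') (h' : Reads E z' w' z'') : Reads E z (w ++ w') z'' := by
  induction w generalizing z with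
  | nil => exact h ▸ h'
  | cons a w ih =>
    obtain ⟨y, h1, h2⟩ := h
    exact ⟨y, h1, ih h2⟩

section Ch
variable {D : Type} [Fintype D] [DecidableEq D]

/-- chain of successive darts -/
def Ch (σ : Perm D) : D → List D → D → Prop
  | a, [], b => σ a = b
  | a, d :: l, b => σ a = d ∧ Ch σ d l b

/-- tail of a chain -/
def Tl (σ : Perm D) : List D → D → Prop
  | [], _ => True
  | d :: l, b => Ch σ d l b

lemma ch_append {σ : Perm D} {a b : D} {l₁ l₂ : List D} :
    Ch σ a (l₁ ++ l₂) b ↔ Ch σ a l₁ (l₂.headD b) ∧ Tl σ l₂ b := by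
  induction l₁ generalizing a with
  | nil => cases l₂ <;> simp [Ch, Tl]
  | cons d l ih => simp [Ch, ih, and_assoc]

lemma Ch.congr {σ σ' : Perm D} {a b : D} {l : List D} (h : Ch σ a l b)
    (hc : ∀ d ∈ a :: l, σ' d = σ d) : Ch σ' a l b := by
  induction l generalizing a with
  | nil => exact (hc a (by simp)).trans h
  | cons d l ih => exact ⟨(hc a (by simp)).trans h.1, ih h.2 fun y hy => hc y (by simp [hy])⟩

lemma Tl.congr {σ σ' : Perm D} {b : D} {l : List D} (h : Tl σ l b)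
    (hc : ∀ d ∈ l, σ' d = σ d) : Tl σ' l b := by
  cases l with
  | nil => trivial
  | cons d l => exact Ch.congr h hc

lemma Ch.last {σ : Perm D} {a b : D} {l : List D} (h : Ch σ a l b) (hn : (a :: l).Nodup) :
    ∃ c ∈ a :: l, σ c = b ∧ ∀ (σ' : Perm D) (b' : D), (∀ d ∈ a :: l, d ≠ c → σ' d = σ d) →
      σ' c = b' → Ch σ' a l b' := by
  induction l generalizing a with
  | nil => exact ⟨a, by simp, h, fun σ' b' _ he => he⟩
  | cons d l ih =>
    obtain ⟨c, h1, h2, h3⟩ := ih h.2 hn.of_cons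
    refine ⟨c, List.mem_cons_of_mem _ h1, h2, fun σ' b' hc he => ⟨(hc a (by simp) ?_).trans h.1,
      h3 σ' b' (fun y hy => hc y (List.mem_cons_of_mem _ hy)) he⟩⟩
    intro e
    exact (List.nodup_cons.mp hn).1 (e ▸ h1)

lemma Ch.same {σ : Perm D} {a b : D} {l : List D} (h : Ch σ a l b) :
    ∀ d ∈ a :: l, SameCycle σ a d := by
  induction l generalizing a with
  | nil => simp [SameCycle.refl]
  | cons d l ih =>
    intro y hy
    rcases List.mem_cons.mp hy with rfl | hy
    · exact SameCycle.refl _ _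
    · exact (same_apply σ h.1).trans (ih h.2 y hy)

lemma Ch.pre {σ : Perm D} {a b : D} {l : List D} (h : Ch σ a l b) {y : D}
    (hy : σ y ∈ l ∨ σ y = b) : y ∈ a :: l := by
  induction l generalizing a with
  | nil =>
    have : σ y = σ a := by simpa [← show σ a = b from h] using hy
    simp [σ.injective this]
  | cons d l ih =>
    by_cases h1 : σ y = d
    · simp [σ.injective (h1.trans h.1.symm)]
    · exact List.mem_cons_of_mem _ (ih h.2 (by simpa [h1] using hy))

lemma Ch.assign {A Z : Type} {E : Z → A → Z → Prop} {lab : D → A} {σ : Perm D} {a b : D}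
    {l : List D} (h : Ch σ a l b) (hn : (a :: l).Nodup) {z z' : Z}
    (hr : Reads E z ((a :: l).map lab) z') :
    ∃ s e : D → Z, s a = z ∧ ∀ d ∈ a :: l, E (s d) (lab d) (e d) ∧
      ((σ d = b ∧ e d = z') ∨ (σ d ∈ l ∧ s (σ d) = e d)) := by
  induction l generalizing a z with
  | nil =>
    obtain ⟨y, h1, h2⟩ := hr
    refine ⟨fun _ => z, fun _ => z', rfl, ?_⟩
    simp only [List.mem_singleton, forall_eq]
    exact ⟨h2 ▸ h1, Or.inl ⟨h, trivial⟩⟩
  | cons d l ih =>
    obtain ⟨y, h1, h2⟩ := hr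
    obtain ⟨s, e, k1, k2⟩ := ih h.2 hn.of_cons h2
    have ha : ∀ u ∈ d :: l, u ≠ a := fun u hu h3 => (List.nodup_cons.mp hn).1 (h3 ▸ hu)
    refine ⟨Function.update s a z, Function.update e a y, by simp, fun u hu => ?_⟩
    rcases List.mem_cons.mp hu with rfl | hu
    · rw [h.1, Function.update_of_ne (ha d (by simp))]
      simp [h1, k1]
    · rw [Function.update_of_ne (ha u hu), Function.update_of_ne (ha u hu)]
      refine ⟨(k2 u hu).1, (k2 u hu).2.imp id fun h3 => ⟨List.mem_cons_of_mem _ h3.1, ?_⟩⟩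
      rw [Function.update_of_ne (ha _ (List.mem_cons_of_mem _ h3.1)), h3.2]

lemma Ch.prod {G : Type} [Group G] {x y : D → G} {σ : Perm D} {a b : D} {l : List D}
    (h : Ch σ a l b) (hx : ∀ d ∈ a :: l, x (σ d) = x d * y d) :
    x b = x a * ((a :: l).map y).prod := by
  induction l generalizing a with
  | nil => simp [← show σ a = b from h, hx]
  | cons d l ih =>
    rw [ih h.2 fun u hu => hx u (List.mem_cons_of_mem _ hu), ← h.1, hx a (by simp), h.1]
    simp [mul_assoc]

lemma not_rel_of_inv {σ α : Perm D} (P : D → Prop) (hσ : ∀ x, P x ↔ P (σ x))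
    (hα : ∀ x, P x ↔ P (α x)) {a b : D} (ha : ¬ P a) (hb : P b) : ¬ (orb σ ⊔ orb α) a b := by
  intro h
  have h1 : orb σ ⊔ orb α ≤ Setoid.ker P :=
    sup_le (orb_le.mpr fun x => propext (hσ x)) (orb_le.mpr fun x => propext (hα x))
  have h2 : P a = P b := h1 h
  exact ha (h2 ▸ hb)

end Ch

variable {A G V : Type} [Group G] (Γ : Sys A G V)

/-- diagrams under construction -/
structure PreD {D : Type} [Fintype D] [DecidableEq D] (w : List A) (j : ℕ) (star : D)
    (σ α : Perm D) (lab : D → A) (x : D → G) (pos : D → V) (l : List D) : Prop where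
  nodup : (star :: l).Nodup
  chain : Ch σ star l star
  map : l.map lab = w
  inv : ∀ d, α (α d) = d
  hstar : α star = star
  act : ∀ d ∈ l, α d ≠ d
  junk : ∀ d, α d = d → d ≠ star → σ d = d
  hlab : ∀ d, α d ≠ d → lab (α d) = Γ.iv (lab d)
  xa : ∀ d, α d ≠ d → x (α d) = x d * Γ.gen (lab d)
  xs : ∀ d, α d ≠ d → x (σ d) = x d * Γ.gen (lab d)
  x0 : x (σ star) = 1
  inner : ∀ d, α d ≠ d → d ∉ l → Γ.st (pos d) (lab d) (pos (σ d))
  pl : Pl σ α
  room : j ≤ (Finset.univ.filter fun d => α d = d ∧ d ≠ star).card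

/-- the word bounds a diagram -/
def Pre (w : List A) : Prop :=
  ∀ j, ∃ (D : Type) (_ : Fintype D) (_ : DecidableEq D) (star : D) (σ α : Perm D) (lab : D → A)
    (x : D → G) (pos : D → V) (l : List D), PreD Γ w j star σ α lab x pos l

variable {Γ}

lemma pre_nil (a : A) (v : V) : Pre Γ [] := by
  intro j
  refine ⟨Option (Fin j), inferInstance, inferInstance, none, 1, 1, fun _ => a, fun _ => 1,
    fun _ => v, [], by simp, rfl, rfl, by simp, rfl, by simp, by simp, by simp, by simp, by simp,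
    rfl, by simp, pl_one, ?_⟩
  have := Finset.card_le_card_of_injOn (s := Finset.univ)
    (t := Finset.univ.filter fun d : Option (Fin j) => (1 : Perm (Option (Fin j))) d = d ∧ d ≠ none) some
    (by simp) (Option.some_injective _).injOn
  simpa using this

lemma PreD.live {D : Type} [Fintype D] [DecidableEq D] {w : List A} {j : ℕ} {star : D}
    {σ α : Perm D} {lab : D → A} {x : D → G} {pos : D → V} {l : List D}
    (h : PreD Γ w j star σ α lab x pos l) {d : D} (hd : α d ≠ d ∨ d = star) :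
    α (σ d) ≠ σ d ∨ σ d = star := by
  by_contra h2
  push Not at h2
  have h3 := σ.injective (h.junk _ h2.1 h2.2)
  rw [h3] at h2
  exact hd.elim (fun h => h h2.1) h2.2

lemma Pre.ins {w₁ w₂ : List A} (h : Pre Γ (w₁ ++ w₂)) (a : A) :
    Pre Γ (w₁ ++ a :: Γ.iv a :: w₂) := by
  intro j
  obtain ⟨D, _, _, star, σ, α, lab, x, pos, l, h⟩ := h (j + 2)
  obtain ⟨l₁, l₂, rfl, hl₁, hl₂⟩ := List.map_eq_append_iff.mp h.map
  obtain ⟨p, hp, q, hq, hpq⟩ := Finset.one_lt_card.mp (lt_of_lt_of_le (by omega) h.room)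
  obtain ⟨hp1, hp2⟩ := (Finset.mem_filter.mp hp).2
  obtain ⟨hq1, hq2⟩ := (Finset.mem_filter.mp hq).2
  have hp3 := h.junk p hp1 hp2
  have hq3 := h.junk q hq1 hq2
  have ne : ∀ d, (α d ≠ d ∨ d = star) → d ≠ p ∧ d ≠ q := fun d hd =>
    ⟨fun e => hd.elim (fun h => h (e ▸ hp1)) (e ▸ hp2),
      fun e => hd.elim (fun h => h (e ▸ hq1)) (e ▸ hq2)⟩
  have lv : ∀ d ∈ star :: (l₁ ++ l₂), α d ≠ d ∨ d = star := fun d hd =>
    (List.mem_cons.mp hd).symm.imp (h.act d) id
  obtain ⟨c1, c2⟩ := ch_append.mp h.chain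
  obtain ⟨c, hc0, hc1, hc2⟩ := c1.last (h.nodup.sublist (by simp))
  have hcm : c ∈ star :: (l₁ ++ l₂) := by
    simp only [List.mem_cons, List.mem_append] at hc0 ⊢
    tauto
  have hcl := lv c hcm
  set σ' := σ * swap p q * swap c q with hσ'
  set α' := α * swap p q with hα'
  have s1 : σ' c = p := by simp [hσ', hp3]
  have s2 : σ' p = q := by simp [hσ', swap_apply_of_ne_of_ne (ne c hcl).1.symm hpq, hq3]
  have s3 : σ' q = σ c := by simp [hσ', swap_apply_of_ne_of_ne (ne c hcl).1 (ne c hcl).2]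
  have s4 : ∀ d, d ≠ c → d ≠ p → d ≠ q → σ' d = σ d := fun d a1 a2 a3 => by
    simp [hσ', swap_apply_of_ne_of_ne a1 a3, swap_apply_of_ne_of_ne a2 a3]
  have a1 : α' p = q := by simp [hα', hq1]
  have a2 : α' q = p := by simp [hα', hp1]
  have a3 : ∀ d, d ≠ p → d ≠ q → α' d = α d := fun d a2 a3 => by
    simp [hα', swap_apply_of_ne_of_ne a2 a3]
  have a4 : ∀ d, d ≠ p → d ≠ q → α d ≠ p ∧ α d ≠ q := fun d a2 a3 =>
    ⟨fun e => a2 (α.injective (e.trans hp1.symm)), fun e => a3 (α.injective (e.trans hq1.symm))⟩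
  have cs : ∀ P : D → Prop, P p → P q → (∀ y, y ≠ p → y ≠ q → P y) → ∀ y, P y := by
    intro P p1 p2 p3 y
    by_cases b1 : y = p
    · exact b1 ▸ p1
    by_cases b2 : y = q
    · exact b2 ▸ p2
    exact p3 y b1 b2
  let lab' := Function.update (Function.update lab p a) q (Γ.iv a)
  let x' := Function.update (Function.update x p (x (σ c))) q (x (σ c) * Γ.gen a)
  have l1 : lab' p = a := by simp [lab', hpq]
  have l2 : lab' q = Γ.iv a := by simp [lab']
  have l3 : ∀ d, d ≠ p → d ≠ q → lab' d = lab d := fun d a2 a3 => by simp [lab', a2, a3]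
  have x1 : x' p = x (σ c) := by simp [x', hpq]
  have x2 : x' q = x (σ c) * Γ.gen a := by simp [x']
  have x3 : ∀ d, d ≠ p → d ≠ q → x' d = x d := fun d a2 a3 => by simp [x', a2, a3]
  have x4 : ∀ d, (α d ≠ d ∨ d = star) → x' (σ' d) = x (σ d) := by
    intro d hd
    by_cases e : d = c
    · rw [e, s1, x1]
    · rw [s4 d e (ne d hd).1 (ne d hd).2, x3 _ (ne _ (h.live hd)).1 (ne _ (h.live hd)).2]
  have nd := h.nodup
  refine ⟨D, inferInstance, inferInstance, star, σ', α', lab', x', pos, l₁ ++ p :: q :: l₂,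
    ?_, ?_, ?_, ?_, ?_, ?_, ?_, ?_, ?_, ?_, x4 star (Or.inr rfl) ▸ h.x0, ?_, ?_, ?_⟩
  · have b1 : p ∉ star :: (l₁ ++ l₂) := fun e => (ne p (lv p e)).1 rfl
    have b2 : q ∉ star :: (l₁ ++ l₂) := fun e => (ne q (lv q e)).2 rfl
    have : (star :: (l₁ ++ p :: q :: l₂)).Perm (p :: q :: star :: (l₁ ++ l₂)) := by
      refine (List.Perm.cons _ (List.perm_middle.trans (List.Perm.cons _ List.perm_middle))).trans ?_
      exact (List.Perm.swap _ _ _).trans (List.Perm.cons _ (List.Perm.swap _ _ _))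
    rw [this.nodup_iff]
    exact List.nodup_cons.mpr ⟨by simpa [hpq] using b1, List.nodup_cons.mpr ⟨b2, nd⟩⟩
  · have m1 : ∀ d ∈ star :: l₁, d ∈ star :: (l₁ ++ l₂) := fun d hd => by
      simp only [List.mem_cons, List.mem_append] at hd ⊢
      tauto
    refine ch_append.mpr ⟨hc2 _ _ (fun d hd e =>
      s4 d e (ne d (lv d (m1 d hd))).1 (ne d (lv d (m1 d hd))).2) s1, s2, ?_⟩
    refine (ch_append (l₁ := [])).mpr ⟨s3.trans hc1, c2.congr fun d hd => ?_⟩
    have m2 : d ∈ star :: (l₁ ++ l₂) := by simp [hd]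
    refine s4 d (fun e => ?_) (ne d (lv d m2)).1 (ne d (lv d m2)).2
    rw [← List.cons_append] at nd
    exact List.disjoint_of_nodup_append nd hc0 (e ▸ hd)
  · rw [List.map_append, List.map_cons, List.map_cons, l1, l2, ← hl₁, ← hl₂]
    congr 1
    · exact List.map_congr_left fun d hd =>
        l3 d (ne d (lv d (by simp [hd]))).1 (ne d (lv d (by simp [hd]))).2
    · congr 2
      exact List.map_congr_left fun d hd =>
        l3 d (ne d (lv d (by simp [hd]))).1 (ne d (lv d (by simp [hd]))).2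
  · refine cs _ (by rw [a1, a2]) (by rw [a2, a1]) fun y b1 b2 => ?_
    rw [a3 y b1 b2, a3 _ (a4 y b1 b2).1 (a4 y b1 b2).2, h.inv]
  · rw [a3 _ hp2.symm hq2.symm, h.hstar]
  · refine cs _ (fun _ => by rw [a1]; exact hpq.symm) (fun _ => by rw [a2]; exact hpq)
      fun y b1 b2 hy => ?_
    rw [a3 y b1 b2]
    exact h.act y (by simpa [b1, b2] using hy)
  · refine cs _ (fun e => absurd (a1.symm.trans e) hpq.symm)
      (fun e => absurd (a2.symm.trans e) hpq) fun y b1 b2 b3 b4 => ?_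
    rw [a3 y b1 b2] at b3
    rw [s4 y (fun e => hcl.elim (fun h => h (e ▸ b3)) (e ▸ b4)) b1 b2, h.junk y b3 b4]
  · refine cs _ (fun _ => by rw [a1, l1, l2]) (fun _ => by rw [a2, l1, l2, Γ.iv_iv])
      fun y b1 b2 hy => ?_
    rw [a3 y b1 b2] at hy ⊢
    rw [l3 y b1 b2, l3 _ (a4 y b1 b2).1 (a4 y b1 b2).2, h.hlab y hy]
  · refine cs _ (fun _ => by rw [a1, x1, x2, l1])
      (fun _ => by rw [a2, x1, x2, l2, Γ.gen_iv, mul_inv_cancel_right]) fun y b1 b2 hy => ?_
    rw [a3 y b1 b2] at hy ⊢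
    rw [l3 y b1 b2, x3 y b1 b2, x3 _ (a4 y b1 b2).1 (a4 y b1 b2).2, h.xa y hy]
  · refine cs _ (fun _ => by rw [s2, x1, x2, l1]) (fun _ => ?_) fun y b1 b2 hy => ?_
    · rw [s3, x2, l2, Γ.gen_iv, mul_inv_cancel_right,
        x3 _ (ne _ (h.live hcl)).1 (ne _ (h.live hcl)).2]
    · rw [a3 y b1 b2] at hy
      rw [x4 y (Or.inl hy), l3 y b1 b2, x3 y b1 b2, h.xs y hy]
  · refine cs _ (fun _ e => absurd (by simp) e) (fun _ e => absurd (by simp) e)
      fun y b1 b2 hy hy' => ?_
    rw [a3 y b1 b2] at hy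
    have b3 : y ∉ l₁ ++ l₂ := by simpa [b1, b2] using hy'
    have b4 : y ≠ c := fun e => (List.mem_cons.mp (show y ∈ _ from e ▸ hcm)).elim
      (fun e => hy (by rw [e, h.hstar])) b3
    rw [l3 y b1 b2, s4 y b4 b1 b2]
    exact h.inner y hy b3
  · refine ((h.pl.swp' p q (Or.inr (Or.inr (junk_not_rel hp3 hp1 hpq.symm)))).swp p q
      (Or.inr (Or.inl (same_apply _ (by simp [hp3, hq1]))))).swp c q (Or.inr (Or.inr ?_))
    refine not_rel_of_inv (fun y => y = p ∨ y = q) ?_ ?_ (by simp [ne c hcl]) (Or.inr rfl)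
    · refine cs _ (by simp [hq3]) (by simp [hp3]) fun y b1 b2 => ?_
      have e1 : σ y ≠ p := fun e => b1 (σ.injective (e.trans hp3.symm))
      have e2 : σ y ≠ q := fun e => b2 (σ.injective (e.trans hq3.symm))
      simp [swap_apply_of_ne_of_ne b1 b2, b1, b2, e1, e2]
    · refine cs _ (by simp [hq1]) (by simp [hp1]) fun y b1 b2 => ?_
      simp [swap_apply_of_ne_of_ne b1 b2, b1, b2, a4 y b1 b2]
  · have := h.room
    have e1 := Finset.card_erase_of_mem hp
    have e2 := Finset.card_erase_of_mem (Finset.mem_erase.mpr ⟨hpq.symm, hq⟩)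
    refine le_trans (by omega) (e2.ge.trans (Finset.card_le_card fun y hy => ?_))
    simp only [Finset.mem_erase, Finset.mem_filter, Finset.mem_univ, true_and] at hy ⊢
    rw [a3 y hy.2.1 hy.1]
    exact hy.2.2

lemma Pre.del (hcl : ∀ v r, Reads Γ.st v r v → (r.map Γ.gen).prod = 1) {w₁ r w₂ : List A}
    (h : Pre Γ (w₁ ++ (r ++ w₂))) {v : V} (hr : Reads Γ.st v r v) : Pre Γ (w₁ ++ w₂) := by
  intro j
  obtain ⟨D, _, _, star, σ, α, lab, x, pos, l, h⟩ := h j
  obtain ⟨l₁, l', rfl, hl₁, hl'⟩ := List.map_eq_append_iff.mp h.map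
  obtain ⟨m, l₂, rfl, hm, hl₂⟩ := List.map_eq_append_iff.mp hl'
  cases m with
  | nil =>
    subst hm
    exact ⟨D, inferInstance, inferInstance, star, σ, α, lab, x, pos, _, h⟩
  | cons b m =>
  obtain ⟨c1, c2⟩ := ch_append.mp h.chain
  obtain ⟨c2, c3⟩ := ch_append.mp c2
  have nd := h.nodup
  have nd1 : (star :: l₁).Nodup := nd.sublist (by simp)
  have nd2 : (b :: m).Nodup := nd.of_cons.of_append_right.of_append_left
  obtain ⟨c, hcm, hc1, hc2⟩ := c1.last nd1
  obtain ⟨e, hem, he1, he2⟩ := c2.last nd2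
  have dj : ∀ y ∈ b :: m, y ∉ star :: l₁ ∧ y ∉ l₂ := by
    intro y hy
    rw [← List.cons_append] at nd
    exact ⟨fun e => List.disjoint_of_nodup_append nd e (List.mem_append_left _ hy),
      fun e => List.disjoint_of_nodup_append nd.of_append_right hy e⟩
  have dj2 : ∀ y ∈ star :: l₁, y ∉ l₂ := by
    intro y hy e
    rw [← List.cons_append] at nd
    exact List.disjoint_of_nodup_append nd hy (List.mem_append_right _ e)
  have actm : ∀ y ∈ b :: m, α y ≠ y := fun y hy => h.act y (by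
    simp only [List.mem_cons, List.mem_append] at hy ⊢; tauto)
  have hcl' : α c ≠ c ∨ c = star := (List.mem_cons.mp hcm).symm.imp
    (fun e => h.act c (by simp [e])) id
  set σ' := σ * swap c e with hσ'
  have s1 : σ' c = l₂.headD star := by simp only [hσ', Perm.mul_apply, swap_apply_left]; exact he1
  have s2 : σ' e = b := by simp only [hσ', Perm.mul_apply, swap_apply_right]; exact hc1
  have s3 : ∀ d, d ≠ c → d ≠ e → σ' d = σ d := fun d a1 a2 => by
    simp [hσ', swap_apply_of_ne_of_ne a1 a2]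
  have k1 : Ch σ' b m b := he2 _ _
    (fun d hd a => s3 d (fun a' => (dj d hd).1 (a' ▸ hcm)) a) s2
  have k2 : Ch σ' star (l₁ ++ l₂) star := ch_append.mpr ⟨hc2 _ _
    (fun d hd a => s3 d a fun a' => (dj e hem).1 (a' ▸ hd)) s1, c3.congr fun d hd =>
      s3 d (fun a => dj2 c hcm (a ▸ hd)) fun a => (dj e hem).2 (a ▸ hd)⟩
  obtain ⟨s, t, t1, t2⟩ := k1.assign nd2 (hm ▸ hr)
  have x1 : x (σ e) = x (σ c) := by
    rw [he1, hc1, c2.prod (x := x) (y := fun d => Γ.gen (lab d))
      fun d hd => h.xs d (actm d hd)]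
    have := hcl v r hr
    rw [← hm, List.map_map] at this
    simp only [Function.comp_def] at this
    rw [this]
    simp
  have x2 : ∀ d, x (σ' d) = x (σ d) := by
    intro d
    rw [hσ', Perm.mul_apply, swap_apply_def]
    split_ifs with a1 a2
    · rw [a1, x1]
    · rw [a2, x1]
    · rfl
  refine ⟨D, inferInstance, inferInstance, star, σ', α, lab, x,
    fun d => if d ∈ b :: m then s d else pos d, l₁ ++ l₂, nd.sublist (by simp), k2,
    by rw [List.map_append, hl₁, hl₂], h.inv, h.hstar, fun d hd => h.act d (by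
      simp only [List.mem_cons, List.mem_append] at hd ⊢; tauto), fun d a1 a2 => ?_, h.hlab,
    h.xa, fun d hd => (x2 d).trans (h.xs d hd), (x2 _).trans h.x0, fun d a1 a2 => ?_,
    h.pl.swp c e (Or.inl ((same_apply σ hc1).trans (c2.same e hem))), h.room⟩
  · rw [s3 d (fun e => hcl'.elim (fun h => h (e ▸ a1)) (e ▸ a2)) fun e' => actm e hem (e' ▸ a1),
      h.junk d a1 a2]
  · by_cases a3 : d ∈ b :: m
    · obtain ⟨u1, u2⟩ := t2 d a3
      rcases u2 with ⟨u2, u3⟩ | ⟨u2, u3⟩
      · simp only [a3, u2, List.mem_cons_self, if_true, t1]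
        exact u3 ▸ u1
      · simp only [a3, List.mem_cons_of_mem _ u2, if_true, u3]
        exact u1
    · have a4 : σ' d ∉ b :: m := fun e => a3 (k1.pre (List.mem_cons.mp e).symm)
      have a5 : d ≠ c := fun e => (List.mem_cons.mp (show d ∈ _ from e ▸ hcm)).elim
        (fun e => a1 (by rw [e, h.hstar])) fun e => a2 (List.mem_append_left _ e)
      simp only [a3, a4, if_false]
      rw [s3 d a5 fun e => a3 (e ▸ hem)]
      refine h.inner d a1 fun e => ?_
      simp only [List.mem_cons, List.mem_append] at e a2 a3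
      tauto

end Vale.Agent.P194
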