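import Mathlib

namespace Vale.Agent.P194
open SimpleGraph

variable {X : Type} {H : SimpleGraph X}

/-- discrete line integral along a walk -/
def Iwk (φ ψ : X → ℤ) {u v : X} (p : H.Walk u v) : ℤ :=
  (p.darts.map fun d => (φ d.fst + φ d.snd) * (ψ d.snd - ψ d.fst)).sum

variable (H) in
/-- Lipschitz functions on a graph -/
def LipG (φ : X → ℤ) : Prop := ∀ u v, H.Adj u v → |φ v - φ u| ≤ 1

lemma Iwk_append (φ ψ : X → ℤ) {u v w : X} (p : H.Walk u v) (q : H.Walk v w) :
    Iwk φ ψ (p.append q) = Iwk φ ψ p + Iwk φ ψ q := by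
  simp [Iwk]

lemma Iwk_cons (φ ψ : X → ℤ) {u v w : X} (h : H.Adj u v) (q : H.Walk v w) :
    Iwk φ ψ (Walk.cons h q) = (φ u + φ v) * (ψ v - ψ u) + Iwk φ ψ q := by
  simp [Iwk]

lemma Iwk_const {φ ψ : X → ℤ} {r : ℤ} {u v : X} (p : H.Walk u v) (h : ∀ y ∈ p.support, φ y = r) :
    Iwk φ ψ p = 2 * r * (ψ v - ψ u) := by
  induction p with
  | nil => simp [Iwk]
  | cons a p ih =>
    rw [Iwk_cons, ih fun y hy => h y (by simp [hy]), h _ (by simp), h _ (by simp)]
    ring

lemma Iwk_le {φ ψ : X → ℤ} {r : ℤ} (h0 : ∀ y, 0 ≤ φ y) (h1 : ∀ y, φ y ≤ r) (hψ : LipG H ψ)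
    {u v : X} (p : H.Walk u v) : -(2 * r * p.length) ≤ Iwk φ ψ p := by
  induction p with
  | nil => simp [Iwk]
  | @cons u v w a p ih =>
    rw [Iwk_cons, Walk.length_cons]
    have := abs_le.mp (hψ u v a)
    push_cast
    nlinarith [h0 u, h0 v, h1 u, h1 v]

lemma adj_dist (hc : H.Connected) {u v : X} (h : H.Adj u v) (y : X) :
    H.dist u y ≤ H.dist v y + 1 := by
  have := hc.dist_triangle (u := u) (v := v) (w := y)
  rw [dist_eq_one_iff_adj.mpr h] at this
  omega

lemma key_ineq (hc : H.Connected) {C : ℕ}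
    (hC : ∀ x (p : H.Walk x x) φ ψ, LipG H φ → LipG H ψ → |Iwk φ ψ p| ≤ C * (p.length + 1))
    (r s : ℕ) {a b c d e f : X} (σ : H.Walk a b) (hσ : σ.length = H.dist a b)
    (τ₁ : H.Walk c d) (τ₂ : H.Walk e f) (h1 : H.dist b c ≤ s) (h2 : H.dist d e ≤ s)
    (h3 : H.dist f a ≤ s) (f1 : ∀ y ∈ τ₁.support, ∀ z ∈ σ.support, r ≤ H.dist y z)
    (f2 : ∀ y ∈ τ₂.support, ∀ z ∈ σ.support, r ≤ H.dist y z) :
    2 * r * σ.length ≤ C * (σ.length + τ₁.length + τ₂.length + 3 * s + 1) + 6 * r * s := by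
  classical
  obtain ⟨κ₁, k1⟩ := hc.exists_walk_length_eq_dist b c
  obtain ⟨κ₂, k2⟩ := hc.exists_walk_length_eq_dist d e
  obtain ⟨κ₃, k3⟩ := hc.exists_walk_length_eq_dist f a
  let φn : X → ℕ := fun x => σ.support.toFinset.sup fun y => r - H.dist x y
  let φ : X → ℤ := fun x => φn x
  let ψ : X → ℤ := fun x => H.dist x a
  have p1 : ∀ x, φn x ≤ r := fun x => Finset.sup_le fun y _ => Nat.sub_le _ _
  have p2 : ∀ u v, H.Adj u v → φn v ≤ φn u + 1 := fun u v h => Finset.sup_le fun y hy => by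
    have := adj_dist hc h y
    have h4 : r - H.dist u y ≤ φn u := Finset.le_sup (f := fun y => r - H.dist u y) hy
    omega
  have hφ : LipG H φ := fun u v h => by
    have := p2 u v h
    have := p2 v u h.symm
    simp only [φ]
    rw [abs_le]
    constructor <;> omega
  have hψ : LipG H ψ := fun u v h => by
    have := adj_dist hc h a
    have := adj_dist hc h.symm a
    simp only [ψ]
    rw [abs_le]
    constructor <;> omega
  have p3 : ∀ y ∈ σ.support, φ y = r := fun y hy => by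
    have h4 : r - H.dist y y ≤ φn y :=
      Finset.le_sup (f := fun z => r - H.dist y z) (List.mem_toFinset.mpr hy)
    have := p1 y
    simp only [φ, dist_self] at h4 ⊢
    omega
  have p4 : ∀ y, (∀ z ∈ σ.support, r ≤ H.dist y z) → φ y = 0 := fun y hy => by
    have : φn y ≤ 0 := Finset.sup_le fun z hz => by
      have := hy z (List.mem_toFinset.mp hz)
      omega
    simp only [φ]
    omega
  have q := hC a (σ.append (κ₁.append (τ₁.append (κ₂.append (τ₂.append κ₃))))) φ ψ hφ hψ
  simp only [Iwk_append, Walk.length_append] at q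
  rw [Iwk_const σ p3, Iwk_const τ₁ fun y hy => p4 y (f1 y hy),
    Iwk_const τ₂ fun y hy => p4 y (f2 y hy)] at q
  have b0 : ∀ y, 0 ≤ φ y := fun y => by simp [φ]
  have b1 : ∀ y, φ y ≤ r := fun y => by simpa [φ] using p1 y
  have c1 := Iwk_le b0 b1 hψ κ₁
  have c2 := Iwk_le b0 b1 hψ κ₂
  have c3 := Iwk_le b0 b1 hψ κ₃
  have c4 : ψ b - ψ a = σ.length := by simp [ψ, hσ, dist_comm]
  rw [c4] at q
  have q' := (abs_le.mp q).2
  have d1 : (κ₁.length : ℤ) ≤ s := by exact_mod_cast k1 ▸ h1
  have d2 : (κ₂.length : ℤ) ≤ s := by exact_mod_cast k2 ▸ h2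
  have d3 : (κ₃.length : ℤ) ≤ s := by exact_mod_cast k3 ▸ h3
  push_cast at q'
  zify
  have hr : (0 : ℤ) ≤ r := by positivity
  have hC0 : (0 : ℤ) ≤ C := by positivity
  nlinarith [mul_le_mul_of_nonneg_left d1 hr, mul_le_mul_of_nonneg_left d2 hr,
    mul_le_mul_of_nonneg_left d3 hr, mul_le_mul_of_nonneg_left d1 hC0,
    mul_le_mul_of_nonneg_left d2 hC0, mul_le_mul_of_nonneg_left d3 hC0]

lemma first_hit (P : X → Prop) {u w : X} (p : H.Walk u w) (hw : P w) :
    P u ∨ ∃ (a b : X) (p₁ : H.Walk u a) (h : H.Adj a b) (p₂ : H.Walk b w),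
      p = p₁.append (Walk.cons h p₂) ∧ (∀ y ∈ p₁.support, ¬ P y) ∧ P b := by
  induction p with
  | nil => exact Or.inl hw
  | @cons u v w h p ih =>
    by_cases hu : P u
    · exact Or.inl hu
    right
    rcases ih hw with hv | ⟨a, b, p₁, h', p₂, e, h1, h2⟩
    · exact ⟨u, v, Walk.nil, h, p, rfl, by simpa using hu, hv⟩
    · refine ⟨a, b, Walk.cons h p₁, h', p₂, by rw [e]; rfl, ?_, h2⟩
      simp only [Walk.support_cons, List.mem_cons, forall_eq_or_imp]
      exact ⟨hu, h1⟩

lemma geo_append (hc : H.Connected) {u v w : X} {p : H.Walk u v} {q : H.Walk v w}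
    (h : (p.append q).length = H.dist u w) : p.length = H.dist u v ∧ q.length = H.dist v w := by
  have := hc.dist_triangle (u := u) (v := v) (w := w)
  have := dist_le p
  have := dist_le q
  rw [Walk.length_append] at h
  omega

theorem thin_of_iso (hc : H.Connected) {C : ℕ}
    (hC : ∀ x (p : H.Walk x x) φ ψ, LipG H φ → LipG H ψ → |Iwk φ ψ p| ≤ C * (p.length + 1)) :
    ∃ δ : ℕ, ∀ (x y z : X) (p : H.Walk x y) (q : H.Walk y z) (t : H.Walk z x),
      p.length = H.dist x y → q.length = H.dist y z → t.length = H.dist z x →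
      ∀ v ∈ p.support, ∃ u, (u ∈ q.support ∨ u ∈ t.support) ∧ H.dist v u ≤ δ := by
  obtain ⟨r, hr⟩ : ∃ r, r = 2 * C + 1 := ⟨_, rfl⟩
  obtain ⟨s, hs⟩ : ∃ s, s = 2 * r + 2 := ⟨_, rfl⟩
  obtain ⟨M, hM⟩ : ∃ M, M = 3 * (C * (5 * s + 1) + 6 * r * s) := ⟨_, rfl⟩
  refine ⟨M + r + 1, fun x y z p q t hp hq ht v hv => ?_⟩
  by_contra hcon
  push Not at hcon
  let P : X → Prop := fun a => ∃ u, (u ∈ q.support ∨ u ∈ t.support) ∧ H.dist a u ≤ r
  have hPv : ¬ P v := fun ⟨u, h1, h2⟩ => by have := hcon u h1; omega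
  obtain ⟨pa, pb, rfl⟩ := Walk.mem_support_iff_exists_append.mp hv
  obtain ⟨b', b₁, B, hb, B', eb, fb, b'', yb, db⟩ :=
    (first_hit P pb ⟨y, Or.inl q.start_mem_support, by simp⟩).resolve_left hPv
  obtain ⟨a', a₁, A, ha, A', ea, fa, a'', ya, da⟩ :=
    (first_hit P pa.reverse ⟨x, Or.inr t.end_mem_support, by simp⟩).resolve_left hPv
  have g1 : (A.reverse.append B).length = H.dist a' b' := by
    have l1 := congrArg Walk.length ea
    have l2 := congrArg Walk.length eb
    have := dist_le (A.reverse.append B)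
    have := dist_le (Walk.cons ha A').reverse
    have := dist_le (Walk.cons hb B')
    have := hc.dist_triangle (u := x) (v := a') (w := y)
    have := hc.dist_triangle (u := a') (v := b') (w := y)
    simp only [Walk.length_append, Walk.length_reverse] at *
    omega
  have far1 : ∀ u, (u ∈ q.support ∨ u ∈ t.support) → ∀ w ∈ (A.reverse.append B).support,
      r ≤ H.dist u w := by
    intro u hu w hw
    have : ¬ P w := by
      rcases (Walk.mem_support_append_iff _ _).mp hw with h | h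
      · exact fa w (by simpa using h)
      · exact fb w h
    by_contra h
    exact this ⟨u, hu, by rw [dist_comm]; omega⟩
  have long : M < (A.reverse.append B).length := by
    have := hcon b'' yb
    have := hc.dist_triangle (u := v) (v := b') (w := b'')
    have := adj_dist hc hb b''
    have := dist_le B
    rw [Walk.length_append]
    omega
  have toz : ∀ u, (u ∈ q.support ∨ u ∈ t.support) → ∃ τ : H.Walk u z, τ.length = H.dist u z ∧
      ∀ w ∈ τ.support, w ∈ q.support ∨ w ∈ t.support := by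
    rintro u (hu | hu)
    · obtain ⟨q₁, q₂, rfl⟩ := Walk.mem_support_iff_exists_append.mp hu
      exact ⟨q₂, (geo_append hc hq).2, fun w hw =>
        Or.inl ((Walk.mem_support_append_iff _ _).mpr (Or.inr hw))⟩
    · obtain ⟨q₁, q₂, rfl⟩ := Walk.mem_support_iff_exists_append.mp hu
      exact ⟨q₁.reverse, by rw [Walk.length_reverse, (geo_append hc ht).1, dist_comm],
        fun w hw => Or.inr ((Walk.mem_support_append_iff _ _).mpr (Or.inl (by simpa using hw)))⟩
  obtain ⟨τ, t1, t2⟩ := toz b'' yb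
  obtain ⟨ρ, r1, r2⟩ := toz a'' ya
  have d1 : H.dist b' b'' ≤ r + 1 := by
    have := adj_dist hc hb b''
    omega
  have d3 : H.dist a'' a' ≤ r + 1 := by
    have := adj_dist hc ha a''
    rw [dist_comm]
    omega
  generalize A.reverse.append B = σ at g1 far1 long
  rcases first_hit (fun a => ∃ u ∈ τ.support, H.dist a u ≤ r) ρ ⟨z, τ.end_mem_support, by simp⟩
    with ⟨u, hu, du⟩ | ⟨c, c₁, ρ₁, hc₁, ρ₂, rfl, fc, u, hu, du⟩
  · obtain ⟨τ₁, τ₂, rfl⟩ := Walk.mem_support_iff_exists_append.mp hu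
    have m1 : ∀ w ∈ τ₁.support, w ∈ q.support ∨ w ∈ t.support := fun w hw =>
      t2 w ((Walk.mem_support_append_iff _ _).mpr (Or.inl hw))
    have d4 : H.dist u a' ≤ s := by
      have := hc.dist_triangle (u := u) (v := a'') (w := a')
      rw [dist_comm] at du
      omega
    have k := key_ineq hc hC r s σ g1 τ₁ (Walk.nil : H.Walk u u) (by omega) (by simp) d4
      (fun w hw => far1 w (m1 w hw)) (fun w hw => far1 w (m1 w (by simp_all)))
    have l1 : τ₁.length ≤ σ.length + 2 * s := by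
      have := hc.dist_triangle (u := b'') (v := b') (w := u)
      have := hc.dist_triangle (u := b') (v := a') (w := u)
      rw [(geo_append hc t1).1, g1]
      rw [dist_comm] at d1 d4
      rw [dist_comm (u := a') (v := b')]
      omega
    rw [Walk.length_nil] at k
    have := Nat.mul_le_mul_left C l1
    nlinarith
  · obtain ⟨τ₁, τ₂, rfl⟩ := Walk.mem_support_iff_exists_append.mp hu
    have m1 : ∀ w ∈ τ₁.support, w ∈ q.support ∨ w ∈ t.support := fun w hw =>
      t2 w ((Walk.mem_support_append_iff _ _).mpr (Or.inl hw))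
    have m2 : ∀ w ∈ ρ₁.reverse.support, w ∈ q.support ∨ w ∈ t.support := fun w hw =>
      r2 w ((Walk.mem_support_append_iff _ _).mpr (Or.inl (by simpa using hw)))
    have far2 : ∀ w ∈ ρ₁.reverse.support, ∀ w' ∈ τ₁.support, r ≤ H.dist w w' := by
      intro w hw w' hw'
      by_contra h
      exact fc w (by simpa using hw)
        ⟨w', (Walk.mem_support_append_iff _ _).mpr (Or.inl hw'), by omega⟩
    have d2 : H.dist u c ≤ s := by
      have := adj_dist hc hc₁ u
      rw [dist_comm]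
      omega
    have g3 : ρ₁.reverse.length = H.dist c a'' := by
      rw [Walk.length_reverse, (geo_append hc r1).1, dist_comm]
    have k1 := key_ineq hc hC r s σ g1 τ₁ ρ₁.reverse (by omega) d2 (by omega)
      (fun w hw => far1 w (m1 w hw)) (fun w hw => far1 w (m2 w hw))
    have k2 := key_ineq hc hC r s τ₁ (geo_append hc t1).1 ρ₁.reverse σ d2 (by omega) (by omega)
      far2 (fun w hw w' hw' => by rw [dist_comm]; exact far1 w' (m1 w' hw') w hw)
    have k3 := key_ineq hc hC r s ρ₁.reverse g3 σ τ₁ (by omega) (by omega) d2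
      (fun w hw w' hw' => by rw [dist_comm]; exact far1 w' (m2 w' hw') w hw)
      (fun w hw w' hw' => by rw [dist_comm]; exact far2 w' hw' w hw)
    generalize ρ₁.reverse.length = l3 at *
    generalize τ₁.length = l2 at *
    generalize σ.length = l1 at *
    nlinarith

end Vale.Agent.P194
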