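import Vale.Agent.P194.Base
import Vale.Agent.P194.Thin

namespace Vale.Agent.P194
open MonoidAlgebra

lemma sum_step {V M : Type} [Fintype V] [AddCommMonoid M] (f g : V → M) (R : V → V → Prop)
    (h1 : ∀ v v' v'', R v v' → R v v'' → v' = v'') (h2 : ∀ v v' v'', R v' v → R v'' v → v' = v'')
    (hfg : ∀ v v', R v v' → f v = g v') (hf : ∀ v, (∀ v', ¬ R v v') → f v = 0)
    (hg : ∀ v', (∀ v, ¬ R v v') → g v' = 0) : ∑ v, f v = ∑ v, g v := by
  classical
  have a1 : ∀ v, f v = ∑ v', if R v v' then g v' else 0 := by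
    intro v
    by_cases h : ∃ v', R v v'
    · obtain ⟨v', h⟩ := h
      rw [Finset.sum_eq_single v' (fun u _ hu => if_neg fun h' => hu (h1 _ _ _ h' h)) (by simp),
        if_pos h, hfg _ _ h]
    · push Not at h
      simp [h, hf v h]
  have a2 : ∀ v', g v' = ∑ v, if R v v' then g v' else 0 := by
    intro v'
    by_cases h : ∃ v, R v v'
    · obtain ⟨v, h⟩ := h
      rw [Finset.sum_eq_single v (fun u _ hu => if_neg fun h' => hu (h2 _ _ _ h' h)) (by simp),
        if_pos h]
    · push Not at h
      simp [h, hg v' h]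
  rw [Finset.sum_congr rfl fun v _ => a1 v, Finset.sum_comm]
  exact Finset.sum_congr rfl fun v _ => (a2 v).symm

theorem alg {K S V Q : Type} [Field K] [Fintype S] [DecidableEq S] [Finite V] [Group Q]
    {L : Gr S V} {lam : K} {w : S × Bool → S → K} {γ : V → S × Bool → K} {J : V → Option S}
    {z : S → V} (h1 : ∀ v a v', L.st v a v' → J v' = J v)
    (h2 : ∀ v s v', L.st v (s, true) v' → γ v' (s, false) = lam * γ v (s, true))
    (h3 : ∀ v a, (∀ v', ¬ L.st v a v') → γ v a = 0)
    (h4 : ∀ v, (∀ s, v ≠ z s) → ∀ t, ∑ a, γ v a * w a t = 0)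
    (h5 : ∀ s, J (z s) = some s ∧ ∃ κ ≠ 0, ∀ t, ∑ a, γ (z s) a * w a t = if s = t then κ else 0)
    (h6 : ∃ v s, J v = none ∧ γ v (s, true) ≠ 0) (θ : V → Q) (gen : S → Q) (root : V → V)
    (t1 : ∀ v s v', L.st v (s, true) v' → θ v' = θ v * gen s ∧ root v' = root v)
    (t2 : ∀ v v', root v = root v' → θ v = θ v' → v = v') :
    ∃ A B : Matrix S S (MonoidAlgebra K Q), A * B = 1 ∧ B * A ≠ 1 := by
  classical
  have := Fintype.ofFinite V
  let B : Matrix S S (MonoidAlgebra K Q) := Matrix.of fun s t =>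
    single 1 (w (s, true) t) + single (gen s) (lam * w (s, false) t)
  let c : (V → Prop) → S → MonoidAlgebra K Q := fun U s =>
    ∑ v, if U v then single (θ v) (γ v (s, true)) else 0
  have key : ∀ U : V → Prop, (∀ v s v', L.st v (s, true) v' → (U v' ↔ U v)) → ∀ t,
      ∑ s, c U s * B s t = ∑ v, if U v then single (θ v) (∑ a, γ v a * w a t) else 0 := by
    intro U hU t
    have : ∀ s, c U s * B s t = ∑ v, if U v then single (θ v)
        (γ v (s, true) * w (s, true) t + γ v (s, false) * w (s, false) t) else 0 := by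
      intro s
      have := sum_step (fun v => if U v then single (θ v * gen s)
          (γ v (s, true) * (lam * w (s, false) t)) else (0 : MonoidAlgebra K Q))
        (fun v => if U v then single (θ v) (γ v (s, false) * w (s, false) t) else 0)
        (fun v v' => L.st v (s, true) v') (fun _ _ _ => L.st_fun)
        (fun _ _ _ h h' => L.st_fun (L.st_rev h) (L.st_rev h'))
        (fun v v' h => by simp only [hU _ _ _ h, (t1 _ _ _ h).1, h2 _ _ _ h, mul_left_comm,
          mul_assoc])
        (fun v h => by simp [h3 v _ h])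
        (fun v h => by simp [h3 v (s, false) fun v' h' => h v' (L.st_rev h')])
      simp only [c, B, Matrix.of_apply, mul_add, Finset.sum_mul, ite_mul, single_mul_single,
        zero_mul, mul_one, this, ← Finset.sum_add_distrib]
      refine Finset.sum_congr rfl fun v _ => ?_
      split_ifs <;> simp [single_add]
    simp only [this]
    rw [Finset.sum_comm]
    refine Finset.sum_congr rfl fun v _ => ?_
    split_ifs
    · rw [Fintype.sum_prod_type]
      simp only [Fintype.sum_bool]
      exact (map_sum (singleAddHom (θ v)) _ _).symm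
    · simp
  choose j1 κ j2 j3 using h5
  refine ⟨Matrix.of fun s t => single (θ (z s))⁻¹ (κ s)⁻¹ * c (fun v => J v = some s) t, B, ?_,
    fun h => ?_⟩
  · ext1 s t
    simp only [Matrix.mul_apply, Matrix.of_apply, mul_assoc, ← Finset.mul_sum]
    rw [key _ fun v s v' h => by rw [h1 _ _ _ h], Finset.sum_eq_single (z s) _ (by simp),
      if_pos (j1 s), j3, single_mul_single, inv_mul_cancel, Matrix.one_apply]
    · split_ifs
      · rw [inv_mul_cancel₀ (j2 s)]
        rfl
      · simp
    · intro v _ hv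
      split_ifs with h
      · rw [h4 v, single_zero]
        rintro s' rfl
        exact hv (congrArg z (Option.some_injective _ ((j1 s').symm.trans h)))
      · rfl
  · obtain ⟨v0, s0, k1, k2⟩ := h6
    let U : V → Prop := fun v => root v = root v0 ∧ J v = none
    have k3 : Matrix.vecMul (c U) B = 0 := by
      funext t
      change ∑ s, c U s * B s t = 0
      rw [key U fun v s v' h => by simp only [U, h1 _ _ _ h, (t1 _ _ _ h).2]]
      refine Finset.sum_eq_zero fun v _ => ?_
      split_ifs with h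
      · rw [h4 v, single_zero]
        rintro s' rfl
        simpa [j1 s'] using h.2
      · rfl
    have k4 := congrArg (Matrix.vecMul (c U)) h
    rw [← Matrix.vecMul_vecMul, k3, Matrix.zero_vecMul, Matrix.vecMul_one] at k4
    have k5 := congrArg (fun y => (y s0).coeff (θ v0)) k4
    simp only [c, coeff_sum, Finsupp.coe_finsetSum, Finset.sum_apply] at k5
    rw [Finset.sum_eq_single v0 _ (by simp), if_pos ⟨rfl, k1⟩] at k5
    · exact k2 (by simpa using k5.symm)
    · intro v _ hv
      split_ifs with h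
      · exact Finsupp.single_eq_of_ne fun e => hv (t2 _ _ h.1 e.symm)
      · rfl

lemma Iw_shift {A G : Type} [Group G] (gen : A → G) (φ ψ : G → ℤ) (x y : G) (w : List A) :
    Iw gen (form gen φ ψ) (x * y) w =
      Iw gen (form gen (fun g => φ (x * g)) fun g => ψ (x * g)) y w := by
  induction w generalizing y with
  | nil => rfl
  | cons a w ih => simp only [Iw, form, mul_assoc, ih]

theorem cayley {S G : Type} [Group G] (gen : S × Bool → G)
    (hg : ∀ s, gen (s, false) = (gen (s, true))⁻¹) (hs : ∀ g, ∃ w : List (S × Bool), (w.map gen).prod = g)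
    {C : ℕ} (hC : ∀ w : List (S × Bool), (w.map gen).prod = 1 → ∀ φ ψ, Lip gen φ →
      Lip gen ψ → |Iw gen (form gen φ ψ) 1 w| ≤ C * (w.length + 1)) (T : Set G)
    (hT : T = Set.range fun s => gen (s, true)) :
    ∃ δ : ℕ, ∀ (x y z : G) (p : (SimpleGraph.mulCayley T).Walk x y)
      (q : (SimpleGraph.mulCayley T).Walk y z) (t : (SimpleGraph.mulCayley T).Walk z x),
      p.length = (SimpleGraph.mulCayley T).dist x y → q.length = (SimpleGraph.mulCayley T).dist y z →
      t.length = (SimpleGraph.mulCayley T).dist z x →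
      ∀ v ∈ p.support, ∃ u, (u ∈ q.support ∨ u ∈ t.support) ∧
        (SimpleGraph.mulCayley T).dist v u ≤ δ := by
  subst hT
  set H := SimpleGraph.mulCayley (Set.range fun s => gen (s, true))
  have a1 : ∀ x a, x = x * gen a ∨ H.Adj x (x * gen a) := by
    rintro x ⟨s, b⟩
    refine or_iff_not_imp_left.mpr fun h => (SimpleGraph.mulCayley_adj' _ _ _).mpr
      ⟨h, _, ⟨s, rfl⟩, ?_⟩
    cases b
    · simp [hg]
    · simp
  have a2 : ∀ x y, H.Adj x y → ∃ a, y = x * gen a := by
    intro x y h
    obtain ⟨-, _, ⟨s, rfl⟩, h | h⟩ := (SimpleGraph.mulCayley_adj' _ _ _).mp h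
    · exact ⟨_, h.symm⟩
    · exact ⟨(s, false), by simp [h, hg]⟩
  have a3 : ∀ (w : List (S × Bool)) x, H.Reachable x (x * (w.map gen).prod) := by
    intro w
    induction w with
    | nil => simp
    | cons a w ih =>
      intro x
      rw [List.map_cons, List.prod_cons, ← mul_assoc]
      refine SimpleGraph.Reachable.trans ?_ (ih _)
      rcases a1 x a with h | h
      · rw [← h]
      · exact h.reachable
  have a4 : ∀ x y (p : H.Walk x y), ∃ w : List (S × Bool), w.length = p.length ∧
      x * (w.map gen).prod = y ∧ ∀ φ ψ, Iwk φ ψ p = Iw gen (form gen φ ψ) x w := by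
    intro x y p
    induction p with
    | nil => exact ⟨[], rfl, by simp, fun _ _ => rfl⟩
    | cons h p ih =>
      obtain ⟨a, rfl⟩ := a2 _ _ h
      obtain ⟨w, k1, k2, k3⟩ := ih
      exact ⟨a :: w, by simp [k1], by simp [← k2, mul_assoc], fun φ ψ => by
        rw [Iwk_cons, k3]; rfl⟩
  have a5 : ∀ φ x, LipG H φ → Lip gen fun g => φ (x * g) := by
    intro φ x h y a
    simp only [← mul_assoc]
    rcases a1 (x * y) a with e | e
    · simp [← e]
    · exact h _ _ e
  refine thin_of_iso (C := C) ⟨fun x y => ?_⟩ fun x p φ ψ hφ hψ => ?_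
  · obtain ⟨w, hw⟩ := hs (x⁻¹ * y)
    simpa [hw] using a3 w x
  · obtain ⟨w, k1, k2, k3⟩ := a4 x x p
    rw [k3, ← k1, ← mul_one x, Iw_shift]
    exact hC w (by simpa using k2) _ _ (a5 _ _ hφ) (a5 _ _ hψ)

theorem core :
    ∃ (G : Type) (_ : Group G) (T : Finset G), Subgroup.closure (T : Set G) = ⊤ ∧
      (∃ δ : ℕ, ∀ (x y z : G) (p : (SimpleGraph.mulCayley (T : Set G)).Walk x y)
        (q : (SimpleGraph.mulCayley (T : Set G)).Walk y z)
        (t : (SimpleGraph.mulCayley (T : Set G)).Walk z x),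
        p.length = (SimpleGraph.mulCayley (T : Set G)).dist x y →
        q.length = (SimpleGraph.mulCayley (T : Set G)).dist y z →
        t.length = (SimpleGraph.mulCayley (T : Set G)).dist z x →
        ∀ v ∈ p.support, ∃ u, (u ∈ q.support ∨ u ∈ t.support) ∧
          (SimpleGraph.mulCayley (T : Set G)).dist v u ≤ δ) ∧
      ¬ Group.ResiduallyFinite G ∧
      ∃ (K : Type) (_ : Field K) (_ : CharP K 2) (S : Type) (_ : Fintype S) (_ : DecidableEq S)
        (_ : Nonempty S) (A B : Matrix S S (MonoidAlgebra K G)), A * B = 1 ∧ B * A ≠ 1 := by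
  classical
  obtain ⟨K, _, _, S, _, _, _, V, _, L, l, lam, w, γ, J, z, l0, l1, l2, h1, h2, h3, h4, h5, h6⟩ :=
    exists_design
  obtain ⟨⟨θ, root, t1, t2⟩, C, hC⟩ := L.main l0 l1 l2
  have hs : ∀ g, ∃ w : List (S × Bool), (w.map L.sys.gen).prod = g := by
    rintro ⟨⟨w⟩⟩
    exact ⟨w, L.prod_gen w⟩
  have hg : ∀ s, L.sys.gen (s, false) = (L.sys.gen (s, true))⁻¹ := fun s => L.sys.gen_iv (s, true)
  refine ⟨L.Grp, inferInstance, Finset.univ.image fun s => L.sys.gen (s, true), ?_,
    cayley _ hg hs hC _ (by simp), fun hR => ?_, K, inferInstance, inferInstance, S, inferInstance,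
    inferInstance, inferInstance,
    alg h1 h2 h3 h4 h5 h6 θ (fun s => L.sys.gen (s, true)) root (fun v s v' => t1 v _ v') t2⟩
  · refine (Subgroup.eq_top_iff' _).mpr fun g => ?_
    obtain ⟨w, rfl⟩ := hs g
    refine Subgroup.list_prod_mem _ fun x hx => ?_
    obtain ⟨⟨s, b⟩, -, rfl⟩ := List.mem_map.mp hx
    have : L.sys.gen (s, true) ∈ Subgroup.closure
        ((Finset.univ.image fun s => L.sys.gen (s, true) : Finset L.Grp) : Set L.Grp) :=
      Subgroup.subset_closure (by simp)
    cases b
    · exact hg s ▸ Subgroup.inv_mem _ this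
    · exact this
  · have : ∀ p : V × V, ∃ N : FiniteIndexNormalSubgroup L.Grp,
        (θ p.1)⁻¹ * θ p.2 ∈ N.toSubgroup → θ p.1 = θ p.2 := by
      intro p
      by_cases h : θ p.1 = θ p.2
      · exact ⟨.ofSubgroup ⊤, fun _ => h⟩
      · obtain ⟨N, hN⟩ := Group.exists_finiteIndexNormalSubgroup_notMem ((θ p.1)⁻¹ * θ p.2)
          fun e => h (inv_mul_eq_one.mp e)
        exact ⟨N, fun e => absurd e hN⟩
    choose N hN using this
    let N' : Subgroup L.Grp := ⨅ p, (N p).toSubgroup
    have : N'.Normal := Subgroup.normal_iInf_normal fun p => inferInstance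
    have : N'.FiniteIndex := Subgroup.finiteIndex_iInf fun p => inferInstance
    obtain ⟨A, B, e1, e2⟩ := alg h1 h2 h3 h4 h5 h6 (Q := L.Grp ⧸ N') (fun v => θ v)
      (fun s => L.sys.gen (s, true)) root
      (fun v s v' h => ⟨by rw [(t1 _ _ _ h).1, QuotientGroup.mk_mul], (t1 _ _ _ h).2⟩)
      fun v v' e e' => t2 v v' e (hN (v, v') (Subgroup.mem_iInf.mp (QuotientGroup.eq.mp e') _))
    have := IsArtinianRing.of_finite K (Matrix S S (MonoidAlgebra K (L.Grp ⧸ N')))
    exact e2 (mul_eq_one_comm.mp e1)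

end Vale.Agent.P194
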