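import Vale.Agent.P194.Reduce

namespace Vale.Agent.P194
open Equiv Equiv.Perm Finset

set_option linter.unusedSectionVars false

variable {A G V : Type} [Group G] (Γ : Sys A G V)

/-- reduced closed paths have length at least `g` -/
def Girth (g : ℕ) : Prop :=
  ∀ (j : ℕ) (v : ℕ → V) (a : ℕ → A), 0 < j → (∀ i < j, Γ.st (v i) (a i) (v (i + 1))) →
    (∀ i, i + 1 < j → a (i + 1) ≠ Γ.iv (a i)) → v j = v 0 → g ≤ j

/-- two reduced paths of length `l + 1` with the same label coincide -/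
def Piece (l : ℕ) : Prop :=
  ∀ (v v' : ℕ → V) (a : ℕ → A),
    (∀ i ≤ l, Γ.st (v i) (a i) (v (i + 1)) ∧ Γ.st (v' i) (a i) (v' (i + 1))) →
    (∀ i < l, a (i + 1) ≠ Γ.iv (a i)) → v 0 = v' 0

variable {D : Type} [Fintype D] [DecidableEq D]

/-- reciprocal orbit size -/
noncomputable def rs (π : Perm D) (d : D) : ℚ :=
  1 / ((univ.filter fun y => SameCycle π d y).card : ℚ)

lemma cls_orb (π : Perm D) : (cls (orb π) : ℚ) = ∑ d, rs π d := by
  classical
  rw [cls_eq_sum]
  refine Finset.sum_congr rfl fun d _ => ?_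
  unfold rs
  congr 3
  ext y
  simp only [mem_filter, mem_univ, true_and]
  rfl

lemma rs_le (π : Perm D) (d : D) (s : Finset D) (hs : ∀ y ∈ s, SameCycle π d y) {k : ℕ}
    (hk : 0 < k) (hks : k ≤ s.card) : rs π d ≤ 1 / k := by
  unfold rs
  refine one_div_le_one_div_of_le (by exact_mod_cast hk) ?_
  exact_mod_cast hks.trans (card_le_card fun y hy => mem_filter.mpr ⟨mem_univ _, hs y hy⟩)

lemma rs_le_one (π : Perm D) (d : D) : rs π d ≤ 1 := by
  simpa using rs_le π d {d} (by simp [SameCycle.refl]) one_pos (by simp)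

lemma rs_le_half {π : Perm D} {d : D} (h : π d ≠ d) : rs π d ≤ 1 / 2 := by
  have := rs_le π d {d, π d} (by simp [SameCycle.refl, same_apply π rfl]) two_pos
    (by rw [card_pair h.symm])
  simpa using this

lemma rs_le_third {π : Perm D} {d : D} (h : π (π d) ≠ d) : rs π d ≤ 1 / 3 := by
  have h1 : π d ≠ d := fun h' => h (by rw [h', h'])
  have h2 : π (π d) ≠ π d := fun h' => h1 (π.injective h')
  have := rs_le π d {d, π d, π (π d)} (by
    simp only [mem_insert, mem_singleton]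
    rintro y (rfl | rfl | rfl)
    · exact SameCycle.refl _ _
    · exact same_apply π rfl
    · exact (same_apply π rfl).trans (same_apply π rfl)) three_pos
    (by rw [card_eq_three.mpr ⟨d, π d, π (π d), h1.symm, h.symm, h2.symm, rfl⟩])
  simpa using this

lemma rs_fixed {π : Perm D} {d : D} (h : π d = d) : rs π d = 1 := by
  unfold rs
  have : (univ.filter fun y => SameCycle π d y) = {d} := by
    ext y
    simp only [mem_filter, mem_univ, true_and, mem_singleton]
    exact ⟨fun hy => (hy.eq_of_left h).symm, fun hy => hy ▸ SameCycle.refl _ _⟩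
  simp [this]

lemma sum_rs_orbit (π : Perm D) (c : D) :
    ∑ d ∈ univ.filter fun y => SameCycle π c y, rs π d = 1 := by
  have h1 : ∀ d ∈ univ.filter fun y => SameCycle π c y,
      rs π d = 1 / ((univ.filter fun y => SameCycle π c y).card : ℚ) := by
    intro d hd
    have hd' := (mem_filter.mp hd).2
    unfold rs
    congr 3
    ext y
    simp only [mem_filter, mem_univ, true_and]
    exact ⟨fun h => hd'.trans h, fun h => hd'.symm.trans h⟩
  rw [Finset.sum_congr rfl h1, sum_const, nsmul_eq_mul, mul_one_div_cancel]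
  exact Nat.cast_ne_zero.mpr (card_ne_zero.mpr ⟨c, by simp [SameCycle.refl]⟩)

variable {Γ} {T : Dat D A G V} {σ α : Perm D}

lemma Dg.euler (h : Dg Γ T σ α) :
    2 ≤ ∑ d ∈ univ.filter fun d => α d ≠ d ∨ d = T.star,
      (rs σ d + rs α d + rs (α * σ) d - 1) := by
  classical
  let J := univ.filter fun d => ¬ (α d ≠ d ∨ d = T.star)
  have hJ : ∀ d ∈ J, α d = d ∧ σ d = d ∧ d ≠ T.star := by
    intro d hd
    have := (mem_filter.mp hd).2
    push Not at this
    exact ⟨this.1, h.junk d this.1 this.2, this.2⟩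
  have h1 : (insert T.star J).card ≤ cls (orb σ ⊔ orb α) := by
    refine card_le_cls _ _ fun x hx y hy hxy => ?_
    by_contra hne
    rcases mem_insert.mp hx with rfl | hx
    · have hy' := hJ y ((mem_insert.mp hy).resolve_left (Ne.symm hne))
      exact junk_not_rel hy'.2.1 hy'.1 hne (Setoid.symm' _ hxy)
    · exact junk_not_rel (hJ x hx).2.1 (hJ x hx).1 (Ne.symm hne) hxy
  rw [card_insert_of_notMem fun hs => (hJ _ hs).2.2 rfl] at h1
  have h2 : (Fintype.card D : ℚ) + 2 * (J.card + 1) ≤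
      cls (orb σ) + cls (orb α) + cls (orb (α * σ)) := by
    have := h.pl
    unfold Pl at this
    exact_mod_cast (by omega : Fintype.card D + 2 * (J.card + 1) ≤
      cls (orb σ) + cls (orb α) + cls (orb (α * σ)))
  have h3 : ∑ d, (rs σ d + rs α d + rs (α * σ) d - 1) =
      cls (orb σ) + cls (orb α) + cls (orb (α * σ)) - Fintype.card D := by
    rw [cls_orb, cls_orb, cls_orb]
    simp [sum_sub_distrib, sum_add_distrib]
  have h4 : ∑ d ∈ J, (rs σ d + rs α d + rs (α * σ) d - 1) = 2 * J.card := by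
    rw [Finset.sum_congr rfl (g := fun _ => (2 : ℚ))]
    · simp [mul_comm]
    · intro d hd
      obtain ⟨a1, a2, -⟩ := hJ d hd
      rw [rs_fixed a1, rs_fixed a2, rs_fixed (show (α * σ) d = d by simp [a1, a2])]
      norm_num
  rw [← sum_filter_add_sum_filter_not univ (fun d => α d ≠ d ∨ d = T.star), h4] at h3
  linarith

lemma Dg.edgeL (h : Dg Γ T σ α) {d : D} (hd : α d ≠ d) {v : V} (hv : (T.s d).2 = Sum.inl v) :
    ∃ v', (T.t d).2 = Sum.inl v' ∧ Γ.st v (T.lab d) v' := by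
  rcases h.edge d hd with ⟨u, u', a1, a2, a3⟩ | ⟨j, a1, a2⟩
  · rw [hv, Sum.inl.injEq] at a1
    exact ⟨u', a2, a1 ▸ a3⟩
  · simp [hv] at a1

lemma Dg.edgeR (h : Dg Γ T σ α) {d : D} (hd : α d ≠ d) {v' : V} (hv : (T.t d).2 = Sum.inl v') :
    ∃ v, (T.s d).2 = Sum.inl v ∧ Γ.st v (T.lab d) v' := by
  rcases h.edge d hd with ⟨u, u', a1, a2, a3⟩ | ⟨j, a1, a2⟩
  · rw [hv, Sum.inl.injEq] at a2
    exact ⟨u, a1, a2 ▸ a3⟩
  · simp [hv] at a2

lemma Dg.no_back (h : Dg Γ T σ α) (hr : Red Γ T σ α) {d : D} (hd : α d ≠ d)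
    (he : α (σ d) ≠ σ d) {v : V} (hv : (T.s d).2 = Sum.inl v) :
    T.lab (σ d) ≠ Γ.iv (T.lab d) := by
  intro hl
  obtain ⟨v', a1, a2⟩ := h.edgeL hd hv
  obtain ⟨v'', b1, b2⟩ := h.edgeL he (v := v') (by rw [h.sd d (Or.inl hd), a1])
  rw [hl] at b2
  exact hr.r1 d hd he hl (by rw [b1, hv, Γ.st_fun b2 (Γ.st_rev a2)])

lemma Dg.deg_ne (h : Dg Γ T σ α) (hr : Red Γ T σ α) {d : D} (hd : α d ≠ d)
    {v : V} (hv : (T.s d).2 = Sum.inl v) : (α * σ) d ≠ d := by
  intro h1
  have h2 : σ d = α d := by rw [← h.inv (σ d)]; exact congrArg α h1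
  exact h.no_back hr hd (h2 ▸ h.act hd) hv (by rw [h2, h.lab d hd])

section
variable (h : Dg Γ T σ α) (hr : Red Γ T σ α) (Gd : Finset D) (hσ : ∀ d ∈ Gd, σ d ∈ Gd)
  (hG : ∀ d ∈ Gd, α d ≠ d ∧ ∃ v, (T.s d).2 = Sum.inl v)
include h hr hσ hG

omit h hr hG in
lemma pow_mem_good {d : D} (hd : d ∈ Gd) (i : ℕ) : (σ ^ i) d ∈ Gd := by
  induction i with
  | zero => exact hd
  | succ i ih => rw [pow_succ', Perm.mul_apply]; exact hσ _ ih

lemma good_path {d : D} (hd : d ∈ Gd) : ∃ v : ℕ → V,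
    (∀ i, (T.s ((σ ^ i) d)).2 = Sum.inl (v i)) ∧ (∀ i, (T.t ((σ ^ i) d)).2 = Sum.inl (v (i + 1))) ∧
    (∀ i, Γ.st (v i) (T.lab ((σ ^ i) d)) (v (i + 1))) ∧
    ∀ i, T.lab ((σ ^ (i + 1)) d) ≠ Γ.iv (T.lab ((σ ^ i) d)) := by
  have h1 : ∀ i, ∃ v, (T.s ((σ ^ i) d)).2 = Sum.inl v := fun i =>
    (hG _ (pow_mem_good Gd hσ hd i)).2
  choose v hv using h1
  have h2 : ∀ i, (T.t ((σ ^ i) d)).2 = Sum.inl (v (i + 1)) := by
    intro i
    rw [← h.sd _ (Or.inl (hG _ (pow_mem_good Gd hσ hd i)).1), ← hv, pow_succ', Perm.mul_apply]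
  refine ⟨v, hv, h2, fun i => ?_, fun i => ?_⟩
  · obtain ⟨v', a1, a2⟩ := h.edgeL (hG _ (pow_mem_good Gd hσ hd i)).1 (hv i)
    rw [h2, Sum.inl.injEq] at a1
    exact a1 ▸ a2
  · rw [pow_succ', Perm.mul_apply]
    exact h.no_back hr (hG _ (pow_mem_good Gd hσ hd i)).1
      (hG _ (hσ _ (pow_mem_good Gd hσ hd i))).1 (hv i)

lemma good_face {g : ℕ} (hg : Girth Γ g) (hg0 : 0 < g) {d : D} (hd : d ∈ Gd) :
    rs σ d ≤ 1 / g := by
  obtain ⟨v, h1, -, h3, h4⟩ := good_path h hr Gd hσ hG hd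
  have hper : d ∈ Function.periodicPts σ := (σ.injective.mem_periodicPts d)
  have h5 : g ≤ Function.minimalPeriod σ d := by
    refine hg _ v (fun i => T.lab ((σ ^ i) d)) (Function.minimalPeriod_pos_of_mem_periodicPts hper)
      (fun i _ => h3 i) (fun i _ => h4 i) ?_
    have := h1 (Function.minimalPeriod σ d)
    rw [← Perm.iterate_eq_pow, Function.iterate_minimalPeriod] at this
    have h0 := h1 0
    rw [pow_zero, Perm.one_apply, this, Sum.inl.injEq] at h0
    exact h0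
  refine rs_le σ d ((range (Function.minimalPeriod σ d)).image fun i => σ^[i] d) ?_ hg0 ?_
  · intro y hy
    obtain ⟨i, -, rfl⟩ := mem_image.mp hy
    exact ⟨(i : ℕ), by rw [zpow_natCast, Perm.iterate_eq_pow]⟩
  · rw [card_image_of_injOn, card_range]
    · exact h5
    · intro i hi j hj hij
      exact Function.iterate_injOn_Iio_minimalPeriod (by simpa using hi) (by simpa using hj) hij

lemma good_run {l : ℕ} (hl : Piece Γ l) {d : D} (hd : d ∈ Gd) {u : V}
    (hu : (T.s (α d)).2 = Sum.inl u) :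
    ∃ i < l, (α * σ) ((α * σ) ((σ ^ i) d)) ≠ (σ ^ i) d := by
  by_contra hcon
  push Not at hcon
  obtain ⟨v, h1, h2, h3, h4⟩ := good_path h hr Gd hσ hG hd
  have ha : ∀ i, α ((σ ^ i) d) ≠ (σ ^ i) d := fun i => (hG _ (pow_mem_good Gd hσ hd i)).1
  have e1 : ∀ i < l, T.t (α ((σ ^ (i + 1)) d)) = T.s (α ((σ ^ i) d)) := by
    intro i hi
    rw [← h.sd _ (Or.inl (h.act (ha _)))]
    congr 1
    rw [← h.inv (σ _), pow_succ', Perm.mul_apply]
    exact congrArg α (hcon i hi)
  have e2 : ∀ i, ∃ w, i ≤ l → (T.s (α ((σ ^ i) d))).2 = Sum.inl w := by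
    intro i
    induction i with
    | zero => exact ⟨u, fun _ => hu⟩
    | succ i ih =>
      obtain ⟨w, hw⟩ := ih
      by_cases hi : i + 1 ≤ l
      · obtain ⟨w', b1, -⟩ := h.edgeR (h.act (ha (i + 1))) (v' := w) (by rw [e1 i hi, hw (by omega)])
        exact ⟨w', fun _ => b1⟩
      · exact ⟨u, fun h => absurd h hi⟩
  choose w hw using e2
  obtain ⟨w0, c1, c2⟩ := h.edgeL (h.act (ha 0)) (hw 0 (Nat.zero_le _))
  let v' : ℕ → V := fun i => Nat.casesOn i w0 w
  have e3 : ∀ i ≤ l, (T.t (α ((σ ^ i) d))).2 = Sum.inl (v' i) := by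
    intro i hi
    cases i with
    | zero => exact c1
    | succ i => rw [e1 i hi, hw i (by omega)]
  have e4 : ∀ i ≤ l, Γ.st (v' i) (T.lab ((σ ^ i) d)) (v' (i + 1)) := by
    intro i hi
    obtain ⟨w', b1, b2⟩ := h.edgeL (h.act (ha i)) (hw i hi)
    rw [e3 i hi, Sum.inl.injEq] at b1
    have := Γ.st_rev b2
    rw [h.lab _ (ha i), Γ.iv_iv, ← b1] at this
    exact this
  have e5 := hl v v' _ (fun i hi => ⟨h3 i, e4 i hi⟩) (fun i _ => h4 i)
  have e6 : v 1 = v' 1 := Γ.st_fun (h3 0) (e5 ▸ e4 0 (Nat.zero_le _))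
  exact hr.r2 _ (ha 0) (by rw [hw 0 (Nat.zero_le _), h2, e6]; rfl) (by rw [c1, h1, e5]; rfl)

open Classical in
theorem good_count {l : ℕ} (hl0 : 0 < l) (hl : Piece Γ l) (hg : Girth Γ (12 * l)) :
    ∑ d ∈ Gd, (rs σ d + rs α d + rs (α * σ) d - 1) ≤
      (2 * ((Gd.filter fun d => ∃ i, (T.s (α d)).2 = Sum.inr i).card : ℚ) - Gd.card) / (12 * l) := by
  classical
  let H := Gd.filter fun d => (α * σ) ((α * σ) d) ≠ d
  have h1 : ∀ d ∈ Gd, rs σ d + rs α d + rs (α * σ) d - 1 ≤
      1 / (12 * l) - if (α * σ) ((α * σ) d) ≠ d then 1 / 6 else 0 := by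
    intro d hd
    have a1 := good_face h hr Gd hσ hG hg (by omega) hd
    have a2 := rs_le_half (hG d hd).1
    push_cast at a1
    split_ifs with h2
    · have := rs_le_third h2
      linarith
    · obtain ⟨v, hv⟩ := (hG d hd).2
      have := rs_le_half (h.deg_ne hr (hG d hd).1 hv)
      linarith
  have h2 : Gd.card ≤ (Gd.filter fun d => ∃ i, (T.s (α d)).2 = Sum.inr i).card + l * H.card := by
    have : Gd ⊆ (Gd.filter fun d => ∃ i, (T.s (α d)).2 = Sum.inr i) ∪
        (range l).biUnion fun i => H.image (fun y => (σ ^ i)⁻¹ y) := by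
      intro d hd
      rw [mem_union]
      cases hs : (T.s (α d)).2 with
      | inl u =>
        obtain ⟨i, hi, h3⟩ := good_run h hr Gd hσ hG hl hd hs
        exact Or.inr (mem_biUnion.mpr ⟨i, mem_range.mpr hi, mem_image.mpr
          ⟨_, mem_filter.mpr ⟨pow_mem_good Gd hσ hd i, h3⟩, by simp⟩⟩)
      | inr i => exact Or.inl (mem_filter.mpr ⟨hd, i, hs⟩)
    refine (card_le_card this).trans ((card_union_le _ _).trans (Nat.add_le_add_left ?_ _))
    refine card_biUnion_le.trans ?_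
    refine (sum_le_sum fun i _ => card_image_le).trans ?_
    simp
  refine (sum_le_sum h1).trans ?_
  rw [sum_sub_distrib, ← sum_filter]
  simp only [sum_const, nsmul_eq_mul]
  have h3 : (Gd.card : ℚ) ≤
      (Gd.filter fun d => ∃ i, (T.s (α d)).2 = Sum.inr i).card + l * H.card := by
    exact_mod_cast h2
  have hl1 : (0 : ℚ) < l := by exact_mod_cast hl0
  rw [le_div_iff₀ (by positivity)]
  have : ((Gd.card : ℚ) * (1 / (12 * l)) - H.card * (1 / 6)) * (12 * l) =
      Gd.card - 2 * (l * H.card) := by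
    field_simp
    ring
  rw [this]
  linarith

end

/-- Injectivity: a diagram all of whose darts lie on the graph closes up. -/
theorem Dg.closes (h : Dg Γ T σ α) {l : ℕ} (hl0 : 0 < l) (hl : Piece Γ l) (hg : Girth Γ (12 * l))
    (hL : ∀ d, ∃ v, (T.s d).2 = Sum.inl v) : T.s T.star = T.t T.star := by
  classical
  obtain ⟨σ, α, h, hr, -⟩ := h.reduce
  by_contra hne
  have hs : σ T.star ≠ T.star := fun h1 => hne (by rw [← h.sd _ (Or.inr rfl), h1])
  have e1 := h.euler
  rw [← sum_filter_add_sum_filter_not _ (fun d => SameCycle σ T.star d)] at e1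
  have e2 := good_count h hr ((univ.filter fun d => α d ≠ d ∨ d = T.star).filter
    fun d => ¬ SameCycle σ T.star d) (by
      intro d hd
      simp only [mem_filter, mem_univ, true_and] at hd ⊢
      exact ⟨(h.live_iff d).mpr hd.1, by simpa using hd.2⟩) (by
      intro d hd
      simp only [mem_filter, mem_univ, true_and] at hd
      exact ⟨hd.1.resolve_right fun h1 => hd.2 (h1 ▸ SameCycle.refl _ _), hL d⟩) hl0 hl hg
  rw [filter_false_of_mem (p := fun d => ∃ i, (T.s (α d)).2 = Sum.inr i) (by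
    rintro d - ⟨i, hi⟩
    obtain ⟨v, hv⟩ := hL (α d)
    simp [hv] at hi)] at e2
  have e3 : ∑ d ∈ (univ.filter fun d => α d ≠ d ∨ d = T.star).filter
      (fun d => SameCycle σ T.star d), (rs σ d + rs α d + rs (α * σ) d - 1) ≤
      ∑ d ∈ univ.filter (fun d => SameCycle σ T.star d),
        (rs σ d + if d = T.star then 1 / 2 else 0) := by
    refine (sum_le_sum (g := fun d => rs σ d + if d = T.star then 1 / 2 else 0) ?_).trans
      (sum_le_sum_of_subset_of_nonneg (filter_subset_filter _ (subset_univ _)) ?_)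
    · intro d hd
      simp only [mem_filter, mem_univ, true_and] at hd
      split_ifs with h1
      · have a1 := rs_le_one α d
        have a2 : (α * σ) d ≠ d := fun h2 => hs (by
          rw [h1] at h2
          exact α.injective (h2.trans h.star.symm))
        have := rs_le_half a2
        linarith
      · have a1 := hd.1.resolve_right h1
        obtain ⟨v, hv⟩ := hL d
        have := rs_le_half a1
        have := rs_le_half (h.deg_ne hr a1 hv)
        linarith
    · intro d _ _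
      have : 0 ≤ rs σ d := by unfold rs; positivity
      split_ifs <;> linarith
  rw [sum_add_distrib, sum_rs_orbit, sum_ite_eq'] at e3
  have e4 : (2 * ((∅ : Finset D).card : ℚ) - ((univ.filter fun d => α d ≠ d ∨ d = T.star).filter
      fun d => ¬ SameCycle σ T.star d).card) / (12 * l) ≤ 0 := by
    refine div_nonpos_of_nonpos_of_nonneg ?_ (by positivity)
    simp
  split_ifs at e3 <;> linarith

open Classical in
/-- Linear isoperimetric inequality. -/
theorem Dg.area (h : Dg Γ T σ α) {l : ℕ} (hl0 : 0 < l) (hl : Piece Γ l) (hg : Girth Γ (12 * l))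
    (hs : ∃ i, (T.s T.star).2 = Sum.inr i) :
    ∃ (σ' α' : Perm D) (Gd : Finset D), Dg Γ T σ' α' ∧
      (∀ d i, (T.s d).2 = Sum.inr i → (α' d ≠ d ↔ α d ≠ d)) ∧
      (∀ d, d ∈ Gd ↔ α' d ≠ d ∧ ∃ v, (T.s d).2 = Sum.inl v) ∧ (∀ d ∈ Gd, σ' d ∈ Gd) ∧
      Gd.card ≤ 26 * l * (univ.filter fun d => (α d ≠ d ∨ d = T.star) ∧
        ∃ i, (T.s d).2 = Sum.inr i).card := by
  classical
  obtain ⟨σ', α', h', hr, h1⟩ := h.reduce
  let Gd := (univ.filter fun d => α' d ≠ d ∨ d = T.star).filter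
    fun d => ¬ ∃ i, (T.s d).2 = Sum.inr i
  have hG : ∀ d, d ∈ Gd ↔ α' d ≠ d ∧ ∃ v, (T.s d).2 = Sum.inl v := by
    intro d
    simp only [Gd, mem_filter, mem_univ, true_and]
    constructor
    · rintro ⟨a1, a2⟩
      refine ⟨a1.resolve_right fun h2 => a2 (h2 ▸ hs), ?_⟩
      cases hd : (T.s d).2 with
      | inl v => exact ⟨v, rfl⟩
      | inr i => exact absurd ⟨i, hd⟩ a2
    · rintro ⟨a1, v, hv⟩
      exact ⟨Or.inl a1, by simp [hv]⟩
  have hσ : ∀ d ∈ Gd, σ' d ∈ Gd := by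
    intro d hd
    obtain ⟨a1, v, hv⟩ := (hG d).mp hd
    obtain ⟨v', b1, -⟩ := h'.edgeL a1 hv
    simp only [Gd, mem_filter, mem_univ, true_and]
    exact ⟨(h'.live_iff d).mpr (Or.inl a1), by simp [h'.sd d (Or.inl a1), b1]⟩
  refine ⟨σ', α', Gd, h', h1, hG, hσ, ?_⟩
  set X := univ.filter fun d => (α d ≠ d ∨ d = T.star) ∧ ∃ i, (T.s d).2 = Sum.inr i with hX
  have hX' : (univ.filter fun d => α' d ≠ d ∨ d = T.star).filter
      (fun d => ∃ i, (T.s d).2 = Sum.inr i) = X := by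
    ext d
    simp only [hX, mem_filter, mem_univ, true_and]
    exact and_congr_left fun ⟨i, hi⟩ => by rw [h1 d i hi]
  have e1 := h'.euler
  rw [← sum_filter_add_sum_filter_not _ (fun d => ∃ i, (T.s d).2 = Sum.inr i), hX'] at e1
  have e2 := good_count h' hr Gd hσ (fun d hd => (hG d).mp hd) hl0 hl hg
  have e3 : ∑ d ∈ X, (rs σ' d + rs α' d + rs (α' * σ') d - 1) ≤ 2 * X.card := by
    refine (sum_le_sum (g := fun _ => (2 : ℚ)) fun d _ => ?_).trans (by simp [mul_comm])
    have := rs_le_one σ' d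
    have := rs_le_one α' d
    have := rs_le_one (α' * σ') d
    linarith
  have e4 : (Gd.filter fun d => ∃ i, (T.s (α' d)).2 = Sum.inr i).card ≤ X.card := by
    refine card_le_card_of_injOn α' (fun d hd => ?_) α'.injective.injOn
    obtain ⟨a1, a2⟩ := mem_filter.mp hd
    rw [← hX']
    simp only [coe_filter, mem_filter, mem_univ, true_and, Set.mem_ofPred_eq]
    exact ⟨Or.inl (h'.act ((hG d).mp a1).1), a2⟩
  have e5 : ((Gd.filter fun d => ∃ i, (T.s (α' d)).2 = Sum.inr i).card : ℚ) ≤ X.card := by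
    exact_mod_cast e4
  have hl1 : (1 : ℚ) ≤ l := by exact_mod_cast hl0
  have e6 : -(2 * (X.card : ℚ)) ≤ (2 * X.card - Gd.card) / (12 * l) := by
    refine le_trans (by linarith) (e2.trans ?_)
    gcongr
  rw [le_div_iff₀ (by positivity)] at e6
  have : (Gd.card : ℚ) ≤ 26 * l * X.card := by
    have : (0 : ℚ) ≤ X.card := by positivity
    nlinarith
  exact_mod_cast this

end Vale.Agent.P194
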