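import Mathlib

namespace Vale.Agent.P194
open Equiv Equiv.Perm

set_option linter.unusedSectionVars false

variable {D : Type} [Fintype D] [DecidableEq D]

/-- number of classes -/
noncomputable def cls (r : Setoid D) : ℕ := Nat.card (Quotient r)

omit [DecidableEq D] in
lemma cls_anti {r s : Setoid D} (h : r ≤ s) : cls s ≤ cls r := by
  refine Nat.card_le_card_of_surjective (Quotient.map' id fun x y hxy => h hxy) ?_
  rintro ⟨x⟩
  exact ⟨Quotient.mk _ x, rfl⟩

omit [DecidableEq D] in
lemma cls_lt {r s : Setoid D} (h : r ≤ s) {a b : D} (hs : s a b) (hr : ¬ r a b) :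
    cls s + 1 ≤ cls r := by
  classical
  have := Fintype.ofFinite (Quotient r)
  have := Fintype.ofFinite (Quotient s)
  unfold cls
  rw [Nat.card_eq_fintype_card, Nat.card_eq_fintype_card]
  refine Fintype.card_lt_of_surjective_not_injective
    (Quotient.map' id fun x y hxy => h hxy) ?_ ?_
  · rintro ⟨x⟩
    exact ⟨Quotient.mk _ x, rfl⟩
  · intro hinj
    exact hr (Quotient.exact (hinj (a₁ := Quotient.mk _ a) (a₂ := Quotient.mk _ b)
      (Quotient.sound hs)))

omit [DecidableEq D] in
lemma cls_le_succ {r s : Setoid D} (a b : D) (h : ∀ t : Setoid D, r ≤ t → t a b → s ≤ t) :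
    cls r ≤ cls s + 1 := by
  classical
  let f : D → Quotient r := fun x => if r x b then Quotient.mk _ a else Quotient.mk _ x
  have h1 : s ≤ Setoid.ker f := by
    refine h _ (fun x y hxy => ?_) ?_
    · change f x = f y
      simp only [f]
      have : r x b ↔ r y b := ⟨fun h => r.trans (r.symm hxy) h, fun h => r.trans hxy h⟩
      by_cases hx : r x b
      · rw [if_pos hx, if_pos (this.mp hx)]
      · rw [if_neg hx, if_neg (mt this.mpr hx)]
        exact Quotient.sound hxy
    · change f a = f b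
      simp only [f]
      rw [if_pos (r.refl b)]
      split_ifs <;> rfl
  let F : Option (Quotient s) → Quotient r := fun o =>
    o.elim (Quotient.mk _ b) (Quotient.lift f fun x y hxy => h1 hxy)
  have h2 : Function.Surjective F := by
    rintro ⟨x⟩
    by_cases hx : r x b
    · exact ⟨none, (Quotient.sound hx).symm⟩
    · refine ⟨some (Quotient.mk _ x), ?_⟩
      change f x = _
      simp only [f]
      rw [if_neg hx]
      rfl
  have := Nat.card_le_card_of_surjective F h2
  rwa [Finite.card_option] at this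

lemma cls_eq_sum (r : Setoid D) [DecidableRel r] :
    (cls r : ℚ) = ∑ d, 1 / ((Finset.univ.filter fun y => r d y).card : ℚ) := by
  classical
  have := Fintype.ofFinite (Quotient r)
  rw [cls, Nat.card_eq_fintype_card, ← Finset.sum_fiberwise Finset.univ (Quotient.mk r)]
  rw [Fintype.card_eq_sum_ones]
  push_cast
  refine Finset.sum_congr rfl ?_
  intro c _
  obtain ⟨x, rfl⟩ := Quotient.exists_rep c
  have h1 : ∀ d ∈ Finset.univ.filter (fun d => Quotient.mk r d = Quotient.mk r x),
      1 / ((Finset.univ.filter fun y => r d y).card : ℚ) =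
      1 / ((Finset.univ.filter (fun d => Quotient.mk r d = Quotient.mk r x)).card : ℚ) := by
    intro d hd
    have hd' : r d x := Quotient.exact (Finset.mem_filter.mp hd).2
    congr 3
    ext y
    simp only [Finset.mem_filter, Finset.mem_univ, true_and]
    exact ⟨fun h => Quotient.sound (r.trans (r.symm h) hd'),
      fun h => r.trans hd' (r.symm (Quotient.exact h))⟩
  rw [Finset.sum_congr rfl h1, Finset.sum_const, nsmul_eq_mul, mul_one_div_cancel]
  exact Nat.cast_ne_zero.mpr (Finset.card_ne_zero.mpr ⟨x, by simp⟩)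

omit [DecidableEq D] in
lemma card_le_cls (r : Setoid D) (T : Finset D) (h : ∀ x ∈ T, ∀ y ∈ T, r x y → x = y) :
    T.card ≤ cls r := by
  rw [← Fintype.card_coe, ← Nat.card_eq_fintype_card]
  exact Nat.card_le_card_of_injective (fun x : T => Quotient.mk r x.1)
    fun x y hxy => Subtype.ext (h _ x.2 _ y.2 (Quotient.exact hxy))

/-- the orbit relation -/
abbrev orb (π : Perm D) : Setoid D := SameCycle.setoid π

lemma orb_le {π : Perm D} {t : Setoid D} : orb π ≤ t ↔ ∀ x, t x (π x) := by
  constructor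
  · intro h x
    exact h (show SameCycle π x (π x) from ⟨1, by simp⟩)
  · intro h x y hxy
    obtain ⟨i, rfl⟩ := SameCycle.exists_nat_pow_eq hxy
    clear hxy
    induction i with
    | zero => exact t.refl x
    | succ i ih => exact t.trans ih (by rw [pow_succ', Perm.mul_apply]; exact h _)

omit [Fintype D] in
lemma rel_swap {t : Setoid D} {a b : D} (h : t a b) (x : D) : t x (swap a b x) := by
  rw [swap_apply_def]
  split_ifs with h1 h2
  · exact h1 ▸ h
  · exact h2 ▸ t.symm h
  · exact t.refl x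

lemma orb_mul_swap_le {π : Perm D} {a b : D} {t : Setoid D} (h : orb π ≤ t) (hab : t a b) :
    orb (π * swap a b) ≤ t :=
  orb_le.mpr fun x => t.trans (rel_swap hab x) (orb_le.mp h _)

lemma not_same_swap {π : Perm D} {a b : D} (hab : a ≠ b) (h : SameCycle π a b) :
    ¬ SameCycle (π * swap a b) a b := by
  classical
  have hex : ∃ j, 0 < j ∧ (π ^ j) b = a := by
    obtain ⟨i, hi, _, h2⟩ := h.symm.exists_pow_eq''
    exact ⟨i, hi, h2⟩
  let j := Nat.find hex
  have hj : 0 < j ∧ (π ^ j) b = a := Nat.find_spec hex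
  have hmin : ∀ i, 0 < i → i < j → (π ^ i) b ≠ a := fun i h0 hi h => Nat.find_min hex hi ⟨h0, h⟩
  have hb : ∀ i, 0 < i → i ≤ j → (π ^ i) b ≠ b := by
    intro i h0 hi h
    have h1 : (π ^ (j - i)) b = a := by
      rw [← hj.2]
      conv_rhs => rw [← Nat.sub_add_cancel hi, pow_add, Perm.mul_apply, h]
    rcases Nat.eq_zero_or_pos (j - i) with h2 | h2
    · rw [h2] at h1
      exact hab h1.symm
    · exact hmin _ h2 (by omega) h1
  intro hs
  obtain ⟨n, hn⟩ := hs.exists_nat_pow_eq
  have key : ∀ n, ∃ i, 0 < i ∧ i ≤ j ∧ ((π * swap a b) ^ n) a = (π ^ i) b := by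
    intro n
    induction n with
    | zero => exact ⟨j, hj.1, le_rfl, hj.2.symm⟩
    | succ n ih =>
      obtain ⟨i, h0, hi, he⟩ := ih
      rw [pow_succ', Perm.mul_apply, he, Perm.mul_apply]
      rcases hi.lt_or_eq with hi | rfl
      · refine ⟨i + 1, by omega, hi, ?_⟩
        rw [swap_apply_of_ne_of_ne (hmin i h0 hi) (hb i h0 hi.le), pow_succ', Perm.mul_apply]
      · exact ⟨1, one_pos, h0, by rw [hj.2, swap_apply_left, pow_one]⟩
  obtain ⟨i, h0, hi, he⟩ := key n
  exact hb i h0 hi (he ▸ hn)

lemma same_swap {π : Perm D} {a b : D} (h : ¬ SameCycle π a b) :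
    SameCycle (π * swap a b) a b := by
  classical
  have hex : ∃ j, 0 < j ∧ (π ^ j) a = a :=
    ⟨orderOf π, orderOf_pos π, by rw [pow_orderOf_eq_one]; rfl⟩
  let j := Nat.find hex
  have hj : 0 < j ∧ (π ^ j) a = a := Nat.find_spec hex
  have key : ∀ i, i < j → ((π * swap a b) ^ (i + 1)) b = (π ^ (i + 1)) a := by
    intro i
    induction i with
    | zero => intro _; simp
    | succ i ih =>
      intro hi
      rw [pow_succ', Perm.mul_apply, ih (by omega), Perm.mul_apply, swap_apply_of_ne_of_ne,
        pow_succ' π (i + 1), Perm.mul_apply]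
      · exact fun h => Nat.find_min hex hi ⟨by omega, h⟩
      · exact fun h' => h ⟨(i + 1 : ℕ), by rw [zpow_natCast]; exact h'⟩
  have := key (j - 1) (by omega)
  rw [Nat.sub_add_cancel hj.1, hj.2] at this
  exact SameCycle.symm ⟨(j : ℕ), by rw [zpow_natCast]; exact this⟩

lemma cls_orb_le (π : Perm D) (a b : D) : cls (orb π) ≤ cls (orb (π * swap a b)) + 1 :=
  cls_le_succ a b fun _ h hab => orb_mul_swap_le h hab

lemma cls_orb_lt {π : Perm D} {a b : D} (hab : a ≠ b) (h : SameCycle π a b) :
    cls (orb π) + 1 ≤ cls (orb (π * swap a b)) :=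
  cls_lt (orb_mul_swap_le le_rfl h) h (not_same_swap hab h)

/-- planarity of a hypermap, as an inequality between Euler characteristic and components -/
def Pl (σ α : Perm D) : Prop :=
  Fintype.card D + 2 * cls (orb σ ⊔ orb α) ≤ cls (orb σ) + cls (orb α) + cls (orb (α * σ))

lemma orb_mul_le (σ α : Perm D) : orb (α * σ) ≤ orb σ ⊔ orb α :=
  orb_le.mpr fun x => (orb σ ⊔ orb α).trans (orb_le.mp le_sup_left x) (orb_le.mp le_sup_right _)

lemma Pl.swp {σ α : Perm D} (h : Pl σ α) (a b : D)
    (hc : SameCycle σ a b ∨ SameCycle (α * σ) a b ∨ ¬ (orb σ ⊔ orb α) a b) :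
    Pl (σ * swap a b) α := by
  by_cases hab : a = b
  · subst hab
    rwa [swap_self, ← Perm.one_def, mul_one]
  unfold Pl at h ⊢
  rw [← mul_assoc]
  have hJ : ∀ t : Setoid D, orb (σ * swap a b) ⊔ orb α ≤ t → t a b → orb σ ⊔ orb α ≤ t := by
    intro t ht htab
    refine sup_le ?_ (le_sup_right.trans ht)
    have := orb_mul_swap_le (le_sup_left.trans ht) htab
    rwa [mul_assoc, swap_mul_self, mul_one] at this
  have j1 := cls_le_succ a b hJ
  have c1 := cls_orb_le σ a b
  have c3 := cls_orb_le (α * σ) a b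
  have m1 : ¬ SameCycle σ a b → (orb (σ * swap a b) ⊔ orb α) a b := fun h =>
    (le_sup_left : orb (σ * swap a b) ≤ _) (same_swap h)
  have m3 : ¬ SameCycle (α * σ) a b → (orb (σ * swap a b) ⊔ orb α) a b := fun h =>
    orb_mul_le (σ * swap a b) α (by rw [← mul_assoc]; exact same_swap h)
  by_cases h1 : SameCycle σ a b
  · have := cls_orb_lt hab h1
    by_cases h3 : SameCycle (α * σ) a b
    · have := cls_orb_lt hab h3
      omega
    · have := cls_anti (hJ _ le_rfl (m3 h3))
      omega
  · by_cases h3 : SameCycle (α * σ) a b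
    · have := cls_orb_lt hab h3
      have := cls_anti (hJ _ le_rfl (m1 h1))
      omega
    · have h4 := (hc.resolve_left h1).resolve_left h3
      have := cls_lt (hJ _ le_rfl (m1 h1)) (m1 h1) h4
      omega

omit [Fintype D] [DecidableEq D] in
lemma cls_conj (π g : Perm D) : cls (orb (g * π * g⁻¹)) = cls (orb π) := by
  refine Nat.card_congr (Quotient.congr g⁻¹ fun x y => ?_)
  exact sameCycle_conj

omit [DecidableEq D] in
lemma Pl.symm {σ α : Perm D} (h : Pl σ α) : Pl α σ := by
  unfold Pl at h ⊢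
  have : σ * α = σ * (α * σ) * σ⁻¹ := by group
  rw [this, cls_conj, sup_comm]
  omega

lemma Pl.swp' {σ α : Perm D} (h : Pl σ α) (a b : D)
    (hc : SameCycle α a b ∨ SameCycle (σ * α) a b ∨ ¬ (orb σ ⊔ orb α) a b) :
    Pl σ (α * Equiv.swap a b) :=
  (h.symm.swp a b (by rwa [sup_comm])).symm

lemma pl_one : Pl (1 : Perm D) 1 := by
  unfold Pl
  have h1 := card_le_cls (orb (1 : Perm D)) Finset.univ fun x _ y _ h => sameCycle_one.mp h
  have h2 : cls (orb (1 : Perm D) ⊔ orb 1) ≤ cls (orb (1 : Perm D)) := cls_anti le_sup_left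
  rw [mul_one]
  rw [Finset.card_univ] at h1
  omega

lemma junk_not_rel {σ α : Perm D} {a b : D} (hσ : σ a = a) (hα : α a = a) (hab : b ≠ a) :
    ¬ (orb σ ⊔ orb α) a b := by
  intro h
  have h1 : orb σ ⊔ orb α ≤ Setoid.ker (fun x => x = a) := by
    refine sup_le (orb_le.mpr fun x => ?_) (orb_le.mpr fun x => ?_)
    · change (x = a) = (σ x = a)
      exact propext ⟨fun h => h ▸ hσ, fun h => σ.injective (h.trans hσ.symm)⟩
    · change (x = a) = (α x = a)
      exact propext ⟨fun h => h ▸ hα, fun h => α.injective (h.trans hα.symm)⟩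
  have h2 : (a = a) = (b = a) := h1 h
  exact hab (h2 ▸ rfl)

lemma same_apply (π : Perm D) {a b : D} (h : π a = b) : SameCycle π a b := ⟨1, by simpa using h⟩

end Vale.Agent.P194
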