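import Vale.Agent.P194.Hyper

namespace Vale.Agent.P194
open Equiv Equiv.Perm

set_option linter.unusedSectionVars false

/-- A folded labelled graph over an alphabet with involution, with a map to a group. -/
structure Sys (A G V : Type) [Group G] where
  iv : A → A
  iv_iv : ∀ a, iv (iv a) = a
  iv_ne : ∀ a, iv a ≠ a
  gen : A → G
  gen_iv : ∀ a, gen (iv a) = (gen a)⁻¹
  st : V → A → V → Prop
  st_fun : ∀ {v a v' v''}, st v a v' → st v a v'' → v' = v''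
  st_rev : ∀ {v a v'}, st v a v' → st v' (iv a) v

/-- The fixed data of a diagram. -/
structure Dat (D A G V : Type) where
  star : D
  lab : D → A
  s : D → G × (V ⊕ ℕ)
  t : D → G × (V ⊕ ℕ)

variable {A G V : Type} [Group G] (Γ : Sys A G V)
variable {D : Type} [Fintype D] [DecidableEq D] (T : Dat D A G V)

/-- A planar diagram. -/
structure Dg (σ α : Perm D) : Prop where
  inv : ∀ d, α (α d) = d
  star : α T.star = T.star
  junk : ∀ d, α d = d → d ≠ T.star → σ d = d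
  lab : ∀ d, α d ≠ d → T.lab (α d) = Γ.iv (T.lab d)
  xa : ∀ d, α d ≠ d → (T.s (α d)).1 = (T.t d).1
  xt : ∀ d, α d ≠ d → (T.t d).1 = (T.s d).1 * Γ.gen (T.lab d)
  sd : ∀ d, (α d ≠ d ∨ d = T.star) → T.s (σ d) = T.t d
  edge : ∀ d, α d ≠ d →
    (∃ v v', (T.s d).2 = Sum.inl v ∧ (T.t d).2 = Sum.inl v' ∧ Γ.st v (T.lab d) v') ∨
    (∃ i, (T.s d).2 = Sum.inr i ∧ (T.t d).2 = Sum.inr (i + 1))
  pl : Pl σ α

variable {Γ T}

lemma Dg.live_iff {σ α : Perm D} (h : Dg Γ T σ α) (d : D) :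
    (α (σ d) ≠ σ d ∨ σ d = T.star) ↔ (α d ≠ d ∨ d = T.star) := by
  constructor
  · intro h1
    by_contra h2
    push Not at h2
    rw [h.junk d h2.1 h2.2] at h1
    exact h1.elim (fun h => h h2.1) h2.2
  · intro h1
    by_contra h2
    push Not at h2
    have h3 := σ.injective (h.junk _ h2.1 h2.2)
    rw [h3] at h2
    exact h1.elim (fun h => h h2.1) h2.2

lemma Dg.act {σ α : Perm D} (_h : Dg Γ T σ α) {d : D} (hd : α d ≠ d) : α (α d) ≠ α d :=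
  fun h1 => hd (α.injective h1)

lemma Dg.xt' {σ α : Perm D} (h : Dg Γ T σ α) {d : D} (hd : α d ≠ d) :
    (T.t (α d)).1 = (T.s d).1 := by
  rw [← h.xa _ (h.act hd), h.inv]

lemma Dg.swp {σ α : Perm D} (h : Dg Γ T σ α) {a b : D} (ha : α a ≠ a ∨ a = T.star)
    (hb : α b ≠ b ∨ b = T.star) (hab : T.t a = T.t b)
    (hc : SameCycle (α * σ) a b) : Dg Γ T (σ * swap a b) α := by
  refine ⟨h.inv, h.star, fun d h1 h2 => ?_, h.lab, h.xa, h.xt, fun d hd => ?_, h.edge,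
    h.pl.swp a b (Or.inr (Or.inl hc))⟩
  · rw [Perm.mul_apply, swap_apply_of_ne_of_ne, h.junk d h1 h2]
    · rintro rfl
      exact ha.elim (fun h => h h1) h2
    · rintro rfl
      exact hb.elim (fun h => h h1) h2
  · rw [Perm.mul_apply, swap_apply_def]
    split_ifs with h1 h2
    · rw [h.sd b hb, h1, hab]
    · rw [h.sd a ha, h2, hab]
    · exact h.sd d hd

lemma Dg.remove {σ α : Perm D} (h : Dg Γ T σ α) {d : D} (hd : α d ≠ d) (h1 : σ d = α d)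
    (h2 : σ (α d) = d) : Dg Γ T (σ * swap d (α d)) (α * swap d (α d)) ∧
      ∀ y, (α * swap d (α d)) y ≠ y ↔ α y ≠ y ∧ y ≠ d ∧ y ≠ α d := by
  have e1 : ∀ y, (α * swap d (α d)) y ≠ y ↔ α y ≠ y ∧ y ≠ d ∧ y ≠ α d := by
    intro y
    rw [Perm.mul_apply, swap_apply_def]
    split_ifs with h3 h4
    · simp [h3, h.inv]
    · simp [h4]
    · simp [h3, h4]
  have e2 : ∀ y, y ≠ d → y ≠ α d → ∀ π : Perm D, (π * swap d (α d)) y = π y := by
    intro y h3 h4 π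
    rw [Perm.mul_apply, swap_apply_of_ne_of_ne h3 h4]
  have s1 : T.star ≠ d := fun h3 => hd (h3 ▸ h.star)
  have s2 : T.star ≠ α d := fun h3 => h.act hd (h3 ▸ h.star)
  refine ⟨⟨fun y => ?_, by rw [e2 _ s1 s2, h.star], fun y h3 h4 => ?_, fun y hy => ?_,
    fun y hy => ?_, fun y hy => h.xt y ((e1 y).mp hy).1, fun y hy => ?_,
    fun y hy => h.edge y ((e1 y).mp hy).1, ?_⟩, e1⟩
  · by_cases hy : (α * swap d (α d)) y = y
    · rw [hy, hy]
    · obtain ⟨h3, h4, h5⟩ := (e1 y).mp hy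
      rw [e2 y h4 h5, e2, h.inv]
      · exact fun h6 => h5 (by rw [← h6, h.inv])
      · exact fun h6 => h4 (α.injective h6)
  · by_cases h5 : y = d
    · simp [h5, h2]
    by_cases h6 : y = α d
    · simp [h6, h1]
    rw [e2 y h5 h6] at h3 ⊢
    exact h.junk y h3 h4
  · obtain ⟨h3, h4, h5⟩ := (e1 y).mp hy
    rw [e2 y h4 h5, h.lab y h3]
  · obtain ⟨h3, h4, h5⟩ := (e1 y).mp hy
    rw [e2 y h4 h5, h.xa y h3]
  · rcases hy with hy | rfl
    · obtain ⟨h3, h4, h5⟩ := (e1 y).mp hy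
      rw [e2 y h4 h5, h.sd y (Or.inl h3)]
    · rw [e2 _ s1 s2, h.sd _ (Or.inr rfl)]
  · exact (h.pl.swp d (α d) (Or.inl (same_apply _ h1))).swp' d (α d) (Or.inl (same_apply _ rfl))

lemma Dg.r2 {σ α : Perm D} (h : Dg Γ T σ α) {d : D} (hd : α d ≠ d)
    (h1 : (T.s (α d)).2 = (T.t d).2) (h2 : (T.t (α d)).2 = (T.s d).2) :
    ∃ σ' α', Dg Γ T σ' α' ∧ ∀ y, α' y ≠ y ↔ α y ≠ y ∧ y ≠ d ∧ y ≠ α d := by
  have g1 : T.s (α d) = T.t d := Prod.ext (h.xa d hd) h1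
  have g2 : T.t (α d) = T.s d := Prod.ext (h.xt' hd) h2
  have hp : α (σ⁻¹ d) ≠ σ⁻¹ d ∨ σ⁻¹ d = T.star := (h.live_iff _).mp (by simp [hd])
  have k1 : Dg Γ T (σ * swap (σ⁻¹ d) (α d)) α :=
    h.swp hp (Or.inl (h.act hd)) (by rw [← h.sd _ hp, g2]; simp) (same_apply _ (by simp))
  set σ₁ := σ * swap (σ⁻¹ d) (α d) with hσ₁
  have k2 : σ₁ (α d) = d := by simp [hσ₁]
  have hp' : α (σ₁⁻¹ (α d)) ≠ σ₁⁻¹ (α d) ∨ σ₁⁻¹ (α d) = T.star :=
    (k1.live_iff _).mp (by simp [h.act hd])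
  have k3 : Dg Γ T (σ₁ * swap (σ₁⁻¹ (α d)) d) α :=
    k1.swp hp' (Or.inl hd) (by rw [← k1.sd _ hp', ← g1]; simp) (same_apply _ (by simp [h.inv]))
  refine ⟨_, _, k3.remove hd (by simp) ?_⟩
  rw [Perm.mul_apply, swap_apply_of_ne_of_ne _ hd, k2]
  intro h3
  rw [Perm.eq_inv_iff_eq, k2] at h3
  exact hd h3.symm

lemma Dg.r1 {σ α : Perm D} (h : Dg Γ T σ α) {d : D} (hd : α d ≠ d) (he : α (σ d) ≠ σ d)
    (h1 : T.lab (σ d) = Γ.iv (T.lab d)) (h2 : (T.t (σ d)).2 = (T.s d).2) :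
    ∃ σ' α', Dg Γ T σ' α' ∧ ∀ y, α' y ≠ y ↔ α y ≠ y ∧ y ≠ d ∧ y ≠ σ d := by
  have g1 : T.s (σ d) = T.t d := h.sd d (Or.inl hd)
  by_cases hde : α d = σ d
  · rw [← hde] at h2 g1 ⊢
    exact h.r2 hd (by rw [g1]) h2
  set e := σ d with hedef
  have n1 : e ≠ d := fun h3 => Γ.iv_ne _ (by rw [← h1, h3])
  have n2 : α e ≠ α d := fun h3 => n1 (α.injective h3)
  have n3 : α e ≠ d := fun h3 => hde (by rw [← h3, h.inv])
  set α' := α * swap e (α d) * swap (α e) d with hα'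
  have v1 : α' d = e := by
    simp [hα', swap_apply_of_ne_of_ne he n2, h.inv]
  have v2 : α' e = d := by
    simp [hα', swap_apply_of_ne_of_ne he.symm n1, h.inv]
  have v3 : α' (α e) = α d := by
    simp [hα', swap_apply_of_ne_of_ne n1.symm hd.symm]
  have v4 : α' (α d) = α e := by
    simp [hα', swap_apply_of_ne_of_ne n2.symm hd]
  have v5 : ∀ y, y ≠ d → y ≠ e → y ≠ α d → y ≠ α e → α' y = α y := by
    intro y a1 a2 a3 a4
    simp [hα', swap_apply_of_ne_of_ne a4 a1, swap_apply_of_ne_of_ne a2 a3]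
  have cs : ∀ P : D → Prop, P d → P e → P (α d) → P (α e) →
      (∀ y, y ≠ d → y ≠ e → y ≠ α d → y ≠ α e → P y) → ∀ y, P y := by
    intro P p1 p2 p3 p4 p5 y
    by_cases a1 : y = d
    · exact a1 ▸ p1
    by_cases a2 : y = e
    · exact a2 ▸ p2
    by_cases a3 : y = α d
    · exact a3 ▸ p3
    by_cases a4 : y = α e
    · exact a4 ▸ p4
    exact p5 y a1 a2 a3 a4
  have w1 : ∀ y, α' y ≠ y ↔ α y ≠ y := by
    refine cs _ (by simp [v1, n1, hd]) (by simp [v2, n1.symm, he]) (by simp [v4, n2, h.act hd])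
      (by simp [v3, n2.symm, h.act he]) fun y a1 a2 a3 a4 => by rw [v5 y a1 a2 a3 a4]
  have g2 : (T.t e).1 = (T.s d).1 := by
    rw [h.xt e he, g1, h.xt d hd, h1, Γ.gen_iv, mul_inv_cancel_right]
  have k : Dg Γ T σ α' := by
    refine ⟨?_, ?_, fun y h3 h4 => h.junk y (not_not.mp (mt (w1 y).mpr (not_not.mpr h3))) h4, ?_,
      ?_, fun y hy => h.xt y ((w1 y).mp hy), fun y hy => h.sd y (by rwa [← w1]),
      fun y hy => h.edge y ((w1 y).mp hy), ?_⟩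
    · refine cs _ (by rw [v1, v2]) (by rw [v2, v1]) (by rw [v4, v3]) (by rw [v3, v4])
        fun y a1 a2 a3 a4 => ?_
      rw [v5 y a1 a2 a3 a4, v5, h.inv]
      · exact fun h3 => a3 (by rw [← h3, h.inv])
      · exact fun h3 => a4 (by rw [← h3, h.inv])
      · exact fun h3 => a1 (α.injective h3)
      · exact fun h3 => a2 (α.injective h3)
    · exact not_not.mp (mt (w1 _).mp (not_not.mpr h.star))
    · refine cs _ (fun _ => by rw [v1, h1]) (fun _ => by rw [v2, h1, Γ.iv_iv])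
        (fun _ => by rw [v4, h.lab e he, h.lab d hd, h1])
        (fun _ => by rw [v3, h.lab e he, h.lab d hd, h1, Γ.iv_iv]) fun y a1 a2 a3 a4 hy => ?_
      rw [v5 y a1 a2 a3 a4] at hy ⊢
      exact h.lab y hy
    · refine cs _ (fun _ => by rw [v1, g1]) (fun _ => by rw [v2, g2])
        (fun _ => by rw [v4, h.xa e he, h.xt' hd, g2])
        (fun _ => by rw [v3, h.xa d hd, h.xt' he, g1]) fun y a1 a2 a3 a4 hy => ?_
      rw [v5 y a1 a2 a3 a4] at hy ⊢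
      exact h.xa y hy
    · refine (h.pl.swp' e (α d) (Or.inr (Or.inl (same_apply _ ?_).symm))).swp' (α e) d
        (Or.inl ((same_apply _ (b := e) ?_).trans (same_apply _ ?_)))
      · simp [h.inv, hedef]
      · simp [swap_apply_of_ne_of_ne he n2, h.inv]
      · simp [h.inv]
  obtain ⟨σ'', α'', k1, k2⟩ := k.r2 ((w1 d).mpr hd) (by rw [v1, g1]) (by rw [v1, h2])
  exact ⟨σ'', α'', k1, fun y => by rw [k2, w1, v1]⟩

variable (Γ T) in
/-- Reduced diagrams. -/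
structure Red (σ α : Perm D) : Prop where
  r1 : ∀ d, α d ≠ d → α (σ d) ≠ σ d → T.lab (σ d) = Γ.iv (T.lab d) → (T.t (σ d)).2 ≠ (T.s d).2
  r2 : ∀ d, α d ≠ d → (T.s (α d)).2 = (T.t d).2 → (T.t (α d)).2 ≠ (T.s d).2

lemma Dg.inl_of {σ α : Perm D} (h : Dg Γ T σ α) {d e : D} (hd : α d ≠ d) (he : α e ≠ e)
    (h1 : (T.s e).2 = (T.t d).2) (h2 : (T.t e).2 = (T.s d).2) (i : ℕ) :
    (T.s d).2 ≠ Sum.inr i ∧ (T.s e).2 ≠ Sum.inr i := by
  rcases h.edge d hd with ⟨v, v', a1, a2, -⟩ | ⟨j, a1, a2⟩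
  · simp [h1, a1, a2]
  · rcases h.edge e he with ⟨v, v', b1, b2, -⟩ | ⟨k, b1, b2⟩
    · simp [b1, a2] at h1
    · rw [b1, a2] at h1
      rw [b2, a1] at h2
      simp only [Sum.inr.injEq] at h1 h2
      omega

theorem Dg.reduce {σ α : Perm D} (h : Dg Γ T σ α) :
    ∃ σ' α', Dg Γ T σ' α' ∧ Red Γ T σ' α' ∧
      ∀ d i, (T.s d).2 = Sum.inr i → (α' d ≠ d ↔ α d ≠ d) := by
  generalize hn : (Finset.univ.filter fun d => α d ≠ d).card = n
  induction n using Nat.strong_induction_on generalizing σ α with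
  | _ n ih =>
  have step : ∀ d e, α d ≠ d → α e ≠ e → (T.s e).2 = (T.t d).2 → (T.t e).2 = (T.s d).2 →
      (∃ σ' α', Dg Γ T σ' α' ∧ ∀ y, α' y ≠ y ↔ α y ≠ y ∧ y ≠ d ∧ y ≠ e) →
      ∃ σ' α', Dg Γ T σ' α' ∧ Red Γ T σ' α' ∧
        ∀ d i, (T.s d).2 = Sum.inr i → (α' d ≠ d ↔ α d ≠ d) := by
    rintro d e hd he h1 h2 ⟨σ', α', k1, k2⟩
    obtain ⟨σ'', α'', l1, l2, l3⟩ := ih _ (by
      rw [← hn]
      refine Finset.card_lt_card ⟨fun y hy => ?_, fun hs => ?_⟩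
      · simp only [Finset.mem_filter, Finset.mem_univ, true_and] at hy ⊢
        exact ((k2 y).mp hy).1
      · have := hs (Finset.mem_filter.mpr ⟨Finset.mem_univ d, hd⟩)
        exact ((k2 d).mp (Finset.mem_filter.mp this).2).2.1 rfl) k1 rfl
    refine ⟨σ'', α'', l1, l2, fun y i hy => ?_⟩
    rw [l3 y i hy, k2]
    have := h.inl_of hd he h1 h2 i
    exact ⟨fun h => h.1, fun h => ⟨h, fun h' => this.1 (h' ▸ hy), fun h' => this.2 (h' ▸ hy)⟩⟩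
  by_cases hr : Red Γ T σ α
  · exact ⟨σ, α, h, hr, fun _ _ _ => Iff.rfl⟩
  by_cases c1 : ∃ d, α d ≠ d ∧ α (σ d) ≠ σ d ∧ T.lab (σ d) = Γ.iv (T.lab d) ∧
      (T.t (σ d)).2 = (T.s d).2
  · obtain ⟨d, a1, a2, a3, a4⟩ := c1
    exact step d (σ d) a1 a2 (by rw [h.sd d (Or.inl a1)]) a4 (h.r1 a1 a2 a3 a4)
  by_cases c2 : ∃ d, α d ≠ d ∧ (T.s (α d)).2 = (T.t d).2 ∧ (T.t (α d)).2 = (T.s d).2
  · obtain ⟨d, a1, a2, a3⟩ := c2
    exact step d (α d) a1 (h.act a1) a2 a3 (h.r2 a1 a2 a3)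
  push Not at c1 c2
  exact absurd ⟨c1, c2⟩ hr

end Vale.Agent.P194
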