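import Vale.Agent.P194.VK

namespace Vale.Agent.P194

lemma Girth.inj {A G V : Type} [Group G] {Γ : Sys A G V} {g n : ℕ} (hg : Girth Γ g)
    {v : ℕ → V} {a : ℕ → A} (h : ∀ i < n, Γ.st (v i) (a i) (v (i + 1)))
    (hr : ∀ i, i + 1 < n → a (i + 1) ≠ Γ.iv (a i)) {i i' : ℕ} (h1 : i < i') (h2 : i' ≤ n)
    (he : v i = v i') : g ≤ i' - i :=
  hg (i' - i) (fun t => v (i + t)) (fun t => a (i + t)) (by omega) (fun t _ => h _ (by omega))
    (fun t _ => hr (i + t) (by omega)) (by rw [Nat.add_sub_cancel' h1.le, ← he]; rfl)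

lemma Sys.back {A G V : Type} [Group G] (Γ : Sys A G V) {v v' : ℕ → V} {a : ℕ → A} (n : ℕ)
    (h : ∀ i < n, Γ.st (v i) (a i) (v (i + 1)) ∧ Γ.st (v' i) (a i) (v' (i + 1)))
    (he : v n = v' n) : v 0 = v' 0 := by
  induction n with
  | zero => exact he
  | succ n ih =>
    exact ih (fun i hi => h i (by omega))
      (Γ.st_fun (Γ.st_rev (h n (by omega)).1) (he ▸ Γ.st_rev (h n (by omega)).2))

variable {S V : Type} (L : Gr S V) (en : S × Bool → V)

/-- steps of the subdivided graph -/
def Gr.subSt : V ⊕ S → S × Bool → V ⊕ S → Prop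
  | Sum.inl v, a, Sum.inl v' => L.st v a v' ∧ v ≠ en a
  | Sum.inl v, a, Sum.inr s => a.1 = s ∧ v = en a
  | Sum.inr s, a, Sum.inl v' => a.1 = s ∧ v' = en (a.1, !a.2)
  | Sum.inr _, _, Sum.inr _ => False

/-- the subdivided graph -/
def Gr.sub (hen : ∀ a, L.st (en a) a (en (a.1, !a.2))) : Gr S (V ⊕ S) where
  st := L.subSt en
  st_fun := by
    rintro (v | s) a (v' | s') (v'' | s'') h h'
    · rw [L.st_fun h.1 h'.1]
    · exact absurd h'.2 h.2
    · exact absurd h.2 h'.2
    · rw [← h.1, h'.1]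
    · rw [h.2, h'.2]
    · exact h'.elim
    · exact h.elim
    · exact h.elim
  st_rev := by
    rintro (v | s) a (v' | s') h
    · refine ⟨L.st_rev h.1, fun e => h.2 ?_⟩
      have := hen (a.1, !a.2)
      rw [Bool.not_not] at this
      exact L.st_fun (e ▸ L.st_rev h.1) this
    · exact ⟨h.1, by simpa using h.2⟩
    · exact h
    · exact h
  full a := ⟨Sum.inl (en a), Sum.inr a.1, rfl, rfl⟩

variable {L en} {hen : ∀ a, L.st (en a) a (en (a.1, !a.2))} {J : V → Option S}

lemma sub_J (hJ : ∀ v a v', L.st v a v' → J v' = J v) (hJe : ∀ a, J (en a) = some a.1) :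
    ∀ p a p', (L.sub en hen).st p a p' → Sum.elim J some p' = Sum.elim J some p := by
  rintro (v | s) a (v' | s') h
  · exact hJ _ _ _ h.1
  · rw [Sum.elim_inr, Sum.elim_inl, h.2, hJe, h.1]
  · rw [Sum.elim_inr, Sum.elim_inl, h.2, hJe, h.1]
  · exact h.elim

lemma sub_uniq (hJ : ∀ v a v', L.st v a v' → J v' = J v) (hJe : ∀ a, J (en a) = some a.1)
    {v : ℕ → V ⊕ S} {a : ℕ → S × Bool} {n : ℕ}
    (h : ∀ i < n, (L.sub en hen).st (v i) (a i) (v (i + 1))) {i i' : ℕ} (h1 : i ≤ n) (h2 : i' ≤ n)
    (e1 : (v i).isRight) (e2 : (v i').isRight) : v i = v i' := by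
  have key : ∀ t ≤ n, Sum.elim J some (v t) = Sum.elim J some (v 0) := by
    intro t
    induction t with
    | zero => exact fun _ => rfl
    | succ t ih => exact fun ht => (sub_J hJ hJe _ _ _ (h t ht)).trans (ih (by omega))
  obtain ⟨s, e1⟩ := Sum.isRight_iff.mp e1
  obtain ⟨s', e2⟩ := Sum.isRight_iff.mp e2
  have := (key i h1).trans (key i' h2).symm
  rw [e1, e2] at this ⊢
  simpa using this

lemma sub_left {p p' : V ⊕ S} {a : S × Bool} (h : (L.sub en hen).st p a p') (y : V)
    (h1 : ¬ p.isRight) (h2 : ¬ p'.isRight) :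
    L.st (Sum.elim id (fun _ => y) p) a (Sum.elim id (fun _ => y) p') := by
  rcases p with v | s <;> rcases p' with v' | s' <;> simp at h1 h2
  exact h.1

lemma sub_two {p z : V ⊕ S} {y : V} {a b : S × Bool} (h : (L.sub en hen).st p a z)
    (h' : (L.sub en hen).st z b (Sum.inl y)) (hz : z.isRight) (hb : b ≠ (a.1, !a.2)) :
    b = a ∧ L.st (Sum.elim id (fun _ => y) p) a y := by
  rcases z with z | s
  · simp at hz
  rcases p with v | s'
  · have : b = a := by
      obtain ⟨a, x⟩ := a
      obtain ⟨b, x'⟩ := b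
      obtain rfl : a = b := h.1.trans h'.1.symm
      cases x <;> cases x' <;> simp_all
    subst this
    refine ⟨rfl, ?_⟩
    rw [h.2, h'.2]
    exact hen b
  · exact h.elim

theorem sub_girth (hJ : ∀ v a v', L.st v a v' → J v' = J v) (hJe : ∀ a, J (en a) = some a.1)
    {g : ℕ} (hg : Girth L.sys g) : Girth (L.sub en hen).sys g := by
  intro j
  induction j using Nat.strong_induction_on with
  | _ j ih =>
  intro v a h0 hst hr hc
  change ∀ i < j, (L.sub en hen).st (v i) (a i) (v (i + 1)) at hst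
  change ∀ i, i + 1 < j → a (i + 1) ≠ ((a i).1, !(a i).2) at hr
  by_cases hrep : ∃ i i', i < i' ∧ i' < j ∧ v i = v i'
  · obtain ⟨i, i', h1, h2, he⟩ := hrep
    exact (ih (i' - i) (by omega) (fun t => v (i + t)) (fun t => a (i + t)) (by omega)
      (fun t _ => hst _ (by omega)) (fun t _ => hr (i + t) (by omega))
      (by rw [Nat.add_sub_cancel' h1.le, ← he]; rfl)).trans (by omega)
  have inj : ∀ i < j, ∀ i' < j, v i = v i' → i = i' := by
    intro i h1 i' h2 he
    by_contra hne
    rcases lt_or_gt_of_ne hne with h | h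
    · exact hrep ⟨i, i', h, h2, he⟩
    · exact hrep ⟨i', i, h, h1, he.symm⟩
  by_cases hsp : ∃ i < j, (v i).isRight
  swap
  · push Not at hsp
    refine hg j (fun t => Sum.elim id (fun _ => en (a 0)) (v t)) a h0 (fun t ht => ?_) hr
      (by simp only [hc])
    refine sub_left (hst t ht) _ (hsp t ht) ?_
    rcases (Nat.succ_le_of_lt ht).eq_or_lt with e | e
    · rw [show t + 1 = j from e, hc]
      exact hsp 0 h0
    · exact hsp _ e
  obtain ⟨i, hi, hz⟩ := hsp
  have hn : ∀ t < j, t ≠ i → ¬ (v t).isRight := fun t ht hne h =>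
    hne (inj t ht i hi (sub_uniq hJ hJe hst ht.le hi.le h hz))
  obtain ⟨y, hy⟩ : ∃ y, v (i + 1) = Sum.inl y := by
    have := hst i hi
    obtain ⟨s, e⟩ := Sum.isRight_iff.mp hz
    rcases h : v (i + 1) with y | s'
    · exact ⟨y, rfl⟩
    · rw [e, h] at this
      exact this.elim
  have hj : 1 < j := by
    by_contra h
    obtain rfl : j = 1 := by omega
    obtain rfl : i = 0 := by omega
    rw [← hc, hy] at hz
    simp at hz
  have two : ∀ t < j, v (t + 1) = v i → a i ≠ ((a t).1, !(a t).2) →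
      a i = a t ∧ L.st (Sum.elim id (fun _ => y) (v t)) (a t) y := fun t ht e hb =>
    sub_two (e ▸ hst t ht) (hy ▸ hst i hi) hz hb
  refine (hg (j - 1) (fun t => Sum.elim id (fun _ => y) (v (if t < i then t else t + 1)))
    (fun t => a (if t < i then t else t + 1)) (by omega) (fun t ht => ?_) (fun t ht => ?_)
    ?_).trans (by omega)
  · change L.st _ _ _
    by_cases h1 : t + 1 < i
    · simp only [h1, show t < i by omega, if_true]
      exact sub_left (hst t (by omega)) _ (hn _ (by omega) (by omega)) (hn _ (by omega) (by omega))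
    by_cases h2 : t < i
    · obtain rfl : i = t + 1 := by omega
      simp only [h1, h2, if_true, if_false, hy]
      exact (two t (by omega) rfl (hr t hi)).2
    simp only [h1, h2, if_false]
    by_cases h3 : (v (t + 1 + 1)).isRight
    · have e1 : t + 1 + 1 = j := by
        by_contra h
        exact hn _ (by omega) (by omega) h3
      have e2 : i = 0 := by
        by_contra h
        rw [e1, hc] at h3
        exact hn 0 h0 (Ne.symm h) h3
      subst e2
      have e3 : v (t + 1 + 1) = v 0 := by rw [e1, hc]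
      obtain ⟨s, e⟩ := Sum.isRight_iff.mp h3
      rw [e]
      refine (two (t + 1) (by omega) e3 fun hb => ?_).2
      have e4 := (L.sub en hen).st_rev (hst (t + 1) (by omega))
      rw [e3, ← hb] at e4
      obtain rfl : 0 = t := by
        have := inj _ (by omega) _ hj ((L.sub en hen).st_fun e4 (hst 0 h0))
        omega
      refine hr 0 hj ?_
      rw [hb]
      simp
    · exact sub_left (hst _ (by omega)) _ (hn _ (by omega) (by omega)) h3
  · change _ ≠ (_, _)
    by_cases h1 : t + 1 < i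
    · simp only [h1, show t < i by omega, if_true]
      exact hr t (by omega)
    by_cases h2 : t < i
    · obtain rfl : i = t + 1 := by omega
      simp only [h1, h2, if_true, if_false]
      rw [← (two t (by omega) rfl (hr t hi)).1]
      exact hr _ (by omega)
    · simp only [h1, h2, if_false]
      exact hr _ (by omega)
  · simp only [show ¬ j - 1 < i by omega, if_false, Nat.sub_add_cancel hj.le, hc]
    by_cases h : 0 < i
    · simp [h]
    · obtain rfl : i = 0 := by omega
      obtain ⟨s, e⟩ := Sum.isRight_iff.mp hz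
      simp [e, hy]

theorem sub_piece (hJ : ∀ v a v', L.st v a v' → J v' = J v) (hJe : ∀ a, J (en a) = some a.1)
    {l g : ℕ} (hl : Piece L.sys l) (hg : Girth (L.sub en hen).sys g) (hlg : 3 * l + 5 < g) :
    Piece (L.sub en hen).sys (3 * l + 4) := by
  intro v v' a hst hr
  have one : ∀ v : ℕ → V ⊕ S, (∀ i ≤ 3 * l + 4, (L.sub en hen).st (v i) (a i) (v (i + 1))) →
      ∃ i, ∀ t ≤ 3 * l + 5, t ≠ i → ¬ (v t).isRight := by
    intro v h
    by_cases h1 : ∃ i ≤ 3 * l + 5, (v i).isRight
    · obtain ⟨i, hi, hz⟩ := h1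
      refine ⟨i, fun t ht hne h2 => ?_⟩
      have h3 : ∀ i < 3 * l + 5, (L.sub en hen).st (v i) (a i) (v (i + 1)) :=
        fun i hi => h i (by omega)
      have e := sub_uniq hJ hJe h3 ht hi h2 hz
      rcases lt_or_gt_of_ne hne with h4 | h4
      · have := hg.inj h3 (fun i hi => hr i (by omega)) h4 hi e
        omega
      · have := hg.inj h3 (fun i hi => hr i (by omega)) h4 ht e.symm
        omega
    · push Not at h1
      exact ⟨0, fun t ht _ => h1 t ht⟩
  obtain ⟨i, hi⟩ := one v fun i hi => (hst i hi).1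
  obtain ⟨i', hi'⟩ := one v' fun i hi => (hst i hi).2
  obtain ⟨k, hk, h1⟩ : ∃ k, k + l ≤ 3 * l + 4 ∧ ∀ t ≤ l + 1, k + t ≠ i ∧ k + t ≠ i' := by
    by_contra h
    push Not at h
    obtain ⟨t0, a0, b0⟩ := h 0 (by omega)
    obtain ⟨t1, a1, b1⟩ := h (l + 2) (by omega)
    obtain ⟨t2, a2, b2⟩ := h (2 * l + 4) (by omega)
    omega
  have := hl (fun t => Sum.elim id (fun _ => en (a 0)) (v (k + t)))
    (fun t => Sum.elim id (fun _ => en (a 0)) (v' (k + t))) (fun t => a (k + t))
    (fun t ht => ⟨sub_left (hen := hen) (hst _ (by omega)).1 _ (hi _ (by omega) (h1 t (by omega)).1)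
      (hi _ (by omega) (h1 (t + 1) (by omega)).1), sub_left (hen := hen) (hst _ (by omega)).2 _
      (hi' _ (by omega) (h1 t (by omega)).2) (hi' _ (by omega) (h1 (t + 1) (by omega)).2)⟩)
    fun t ht => hr (k + t) (by omega)
  refine Sys.back _ k (fun t ht => hst t (by omega)) ?_
  have e1 := hi k (by omega) (h1 0 (by omega)).1
  have e2 := hi' k (by omega) (h1 0 (by omega)).2
  simp only [add_zero] at this
  revert this e1 e2
  rcases v k with x | x <;> rcases v' k with x' | x' <;> simp

end Vale.Agent.P194
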