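import Mathlib

namespace Vale.Agent.P194
open MonoidAlgebra

theorem exists_units (K S : Type) [Field K] [CharP K 2] [Fintype S] [DecidableEq S] [Nonempty S] :
    ∃ (H : Type) (_ : Group H) (E : S → S → MonoidAlgebra K H),
      (∀ i j k l, E i j * E k l = if j = k then E i l else 0) ∧ ∀ i, E i i ≠ 0 := by
  obtain ⟨o⟩ := ‹Nonempty S›
  let A := S → Multiplicative (ZMod 3)
  let ω : Multiplicative (ZMod 3) := Multiplicative.ofAdd 1
  let H := A ⋊[mulAutArrow (G := Equiv.Perm S)] Equiv.Perm S
  let x : S → MonoidAlgebra K A := fun j => single (Pi.mulSingle j ω) 1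
  let e : S → MonoidAlgebra K A := fun j => 1 + x j + x j ^ 2
  have h2 : (2 : MonoidAlgebra K A) = 0 := by
    rw [← map_ofNat (algebraMap K (MonoidAlgebra K A)), CharTwo.two_eq_zero, map_zero]
  have he : ∀ j, e j * e j = e j := by
    intro j
    have : x j ^ 3 = 1 := by
      have : (Pi.mulSingle j ω : A) ^ 3 = 1 := funext fun i =>
        (show ∀ y : Multiplicative (ZMod 3), y ^ 3 = 1 by decide) _
      simp only [x, single_pow, one_pow, this]
      rfl
    simp only [e]
    linear_combination (x j + 2) * this + (x j + x j ^ 2 + 1) * h2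
  let f : MonoidAlgebra K A := (1 - e o) * ∏ j ∈ Finset.univ.erase o, e j
  have f1 : f * f = f := by
    have : (∏ j ∈ Finset.univ.erase o, e j) * ∏ j ∈ Finset.univ.erase o, e j =
        ∏ j ∈ Finset.univ.erase o, e j := by
      rw [← Finset.prod_mul_distrib]
      exact Finset.prod_congr rfl fun j _ => he j
    simp only [f]
    linear_combination (1 - e o) ^ 2 * this + (∏ j ∈ Finset.univ.erase o, e j) * he o
  have f2 : ∀ j ≠ o, f * e j = f := by
    intro j hj
    simp only [f]
    rw [← Finset.mul_prod_erase _ _ (Finset.mem_erase.mpr ⟨hj, Finset.mem_univ j⟩)]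
    linear_combination (1 - e o) * (∏ i ∈ (Finset.univ.erase o).erase j, e i) * he j
  have f3 : e o * f = 0 := by
    simp only [f]
    linear_combination - (∏ j ∈ Finset.univ.erase o, e j) * he o
  have f4 : f ≠ 0 := by
    intro h
    let π := mapDomainRingHom K (Pi.evalMonoidHom (fun _ : S => Multiplicative (ZMod 3)) o)
    have h3 : ∀ j ∈ Finset.univ.erase o, π (e j) = 1 := by
      intro j hj
      have : π (x j) = 1 := by
        simp [π, x, Pi.mulSingle_eq_of_ne (Finset.mem_erase.mp hj).1.symm, one_def]
      have h4 := congrArg π h2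
      rw [map_ofNat, map_zero] at h4
      simp only [e, map_add, map_pow, map_one, this]
      linear_combination h4
    have h4 := congrArg π h
    simp only [f, map_mul, map_prod, Finset.prod_congr rfl h3, Finset.prod_const_one, mul_one]
      at h4
    simp only [map_zero, map_sub, map_one, e, map_add, map_pow] at h4
    have h5 : π (x o) = single ω 1 := by simp [π, x]
    have h6 : single ω (1 : K) + single (ω ^ 2) 1 = 0 := by
      rw [h5, single_pow, one_pow] at h4
      linear_combination - h4
    have := congrArg (fun y => y.coeff ω) h6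
    simp [Finsupp.single_eq_of_ne (show ω ≠ ω ^ 2 by decide)] at this
  let φ : MonoidAlgebra K A →+* MonoidAlgebra K H := mapDomainRingHom K SemidirectProduct.inl
  let u : Equiv.Perm S →* MonoidAlgebra K H := (of K H).comp SemidirectProduct.inr
  have c1 : ∀ τ, φ (e (τ o)) * u τ = u τ * φ (e o) := by
    intro τ
    have : φ (x (τ o)) * u τ = u τ * φ (x o) := by
      simp only [φ, u, x, mapDomainRingHom_apply, mapDomain_single, MonoidHom.comp_apply, of_apply,
        single_mul_single]
      congr 1
      have : mulAutArrow τ (Pi.mulSingle o ω : A) = Pi.mulSingle (τ o) ω := by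
        funext i
        change (Pi.mulSingle o ω : A) (τ⁻¹ i) = _
        by_cases h : i = τ o
        · simp [h]
        · have : τ⁻¹ i ≠ o := fun h' => h (by rw [← h']; simp)
          rw [Pi.mulSingle_eq_of_ne h, Pi.mulSingle_eq_of_ne this]
      rw [← this, SemidirectProduct.inl_aut, map_inv, inv_mul_cancel_right]
    simp only [e, map_add, map_one, sq, map_mul, add_mul, mul_add, one_mul, mul_one, mul_assoc,
      this]
    rw [← mul_assoc, this, mul_assoc]
  refine ⟨H, inferInstance, fun i j => u (Equiv.swap o i) * φ f * u (Equiv.swap o j),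
    fun i j k l => ?_, fun i h => f4 ?_⟩
  · have : ∀ a b c d p : MonoidAlgebra K H, a * p * b * (c * p * d) = a * (p * (b * c) * p) * d := by
      intros
      simp only [mul_assoc]
    rw [this, ← map_mul u]
    split_ifs with h
    · rw [h, Equiv.swap_mul_self, map_one, mul_one, ← map_mul φ, f1]
    · have h3 : (Equiv.swap o j * Equiv.swap o k) o ≠ o := by
        intro h'
        rw [Equiv.Perm.mul_apply, Equiv.swap_apply_left, Equiv.swap_apply_eq_iff,
          Equiv.swap_apply_left] at h'
        exact h h'.symm
      rw [show φ f * u (Equiv.swap o j * Equiv.swap o k) * φ f = 0 by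
        nth_rw 1 [← f2 _ h3]
        rw [map_mul φ, mul_assoc (φ f), c1, mul_assoc, mul_assoc, ← map_mul φ, f3, map_zero,
          mul_zero, mul_zero], mul_zero, zero_mul]
  · apply mapDomain_injective (f := SemidirectProduct.inl (φ := mulAutArrow (G := Equiv.Perm S)))
      SemidirectProduct.inl_injective
    have := congrArg (fun y => u (Equiv.swap o i) * y * u (Equiv.swap o i)) h
    simp only [← mul_assoc, ← map_mul u, Equiv.swap_mul_self, map_one, one_mul] at this
    rw [mul_assoc, ← map_mul u, Equiv.swap_mul_self, map_one, mul_one, mul_zero, zero_mul] at this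
    rw [mapDomain_zero]
    exact this

theorem reduce {K S G : Type} [Field K] [CharP K 2] [Fintype S] [DecidableEq S] [Nonempty S]
    [Group G] {A B : Matrix S S (MonoidAlgebra K G)} (h1 : A * B = 1) (h2 : B * A ≠ 1) :
    ∃ (G' : Type) (_ : Group G') (a b : MonoidAlgebra K G'), a * b = 1 ∧ b * a ≠ 1 := by
  obtain ⟨H, _, E, e1, e2⟩ := exists_units K S
  let R := MonoidAlgebra K G
  let ψ := lift K (MonoidAlgebra R H) H (of R H)
  let C : R →+* MonoidAlgebra R H := singleOneRingHom
  have c1 : ∀ r y, ψ y * C r = C r * ψ y := by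
    intro r y
    induction y using MonoidAlgebra.induction_on with
    | of m => simp [ψ, C]
    | add x y h h' => rw [map_add, add_mul, mul_add, h, h']
    | smul c x h => rw [map_smul, smul_mul_assoc, mul_smul_comm, h]
  have c2 : ∀ y h, (ψ y).coeff h = algebraMap K R (y.coeff h) := by
    intro y h
    induction y using MonoidAlgebra.induction_on with
    | of m =>
      classical
      simp only [ψ, lift_of]
      simp only [of_apply, coeff_single, Finsupp.single_apply]
      split_ifs <;> simp
    | add x y h h' => simp [h, h']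
    | smul c x h =>
      rw [map_smul, coeff_smul_apply, coeff_smul_apply, h, smul_eq_mul, map_mul, Algebra.smul_def]
  let Φ : Matrix S S R → MonoidAlgebra R H := fun M => ∑ i, ∑ j, C (M i j) * ψ (E i j)
  have p1 : ∀ M N, Φ M * Φ N = Φ (M * N) := by
    intro M N
    have : ∀ i j k l, C (M i j) * ψ (E i j) * (C (N k l) * ψ (E k l)) =
        if j = k then C (M i j * N k l) * ψ (E i l) else 0 := by
      intro i j k l
      rw [mul_assoc, ← mul_assoc (ψ _), c1, mul_assoc, ← map_mul ψ, e1, ← mul_assoc, ← map_mul C]
      split_ifs <;> simp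
    simp only [Φ, Finset.sum_mul, Matrix.mul_apply, map_sum]
    refine Finset.sum_congr rfl fun i _ => ?_
    conv_rhs => rw [Finset.sum_comm]
    refine Finset.sum_congr rfl fun j _ => ?_
    simp only [Finset.mul_sum, this]
    rw [Finset.sum_comm]
    simp
  have p2 : ∀ M N, (Φ M + (1 - Φ 1)) * (Φ N + (1 - Φ 1)) = Φ (M * N) + (1 - Φ 1) := by
    intro M N
    simp only [add_mul, mul_add, mul_sub, sub_mul, p1, mul_one, one_mul]
    abel
  refine ⟨H × G, inferInstance, curryRingEquiv.symm (Φ A + (1 - Φ 1)),
    curryRingEquiv.symm (Φ B + (1 - Φ 1)), ?_, fun h => h2 ?_⟩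
  · rw [← map_mul, p2, h1, add_sub_cancel, map_one]
  · rw [← map_mul, p2, map_eq_one_iff _ (RingEquiv.injective _), ← add_sub_assoc,
      sub_eq_iff_eq_add, add_comm, add_right_inj] at h
    have p3 : ∀ M i j, ψ (E i i) * Φ M * ψ (E j i) = C (M i j) * ψ (E i i) := by
      intro M i j
      have : ∀ k l, ψ (E i i) * (C (M k l) * ψ (E k l)) * ψ (E j i) =
          if i = k then if l = j then C (M k l) * ψ (E i i) else 0 else 0 := by
        intro k l
        rw [← mul_assoc, c1, mul_assoc, mul_assoc, ← map_mul ψ, ← map_mul ψ, e1]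
        split_ifs with h h' h' <;> simp [*]
      simp [Φ, Finset.sum_mul, Finset.mul_sum, this]
    ext1 i j
    have h3 := p3 (B * A) i j
    rw [h, p3, ← sub_eq_zero, ← sub_mul, ← map_sub] at h3
    obtain ⟨g, hg⟩ : ∃ g, (E i i).coeff g ≠ 0 := by
      by_contra hc
      push Not at hc
      exact e2 i (MonoidAlgebra.ext (Finsupp.ext hc))
    have h4 := congrArg (fun y => y.coeff g) h3
    simp only [show ∀ r, C r = single 1 r from fun _ => rfl, coeff_single_one_mul, c2, coeff_zero,
      Finsupp.coe_zero, Pi.zero_apply] at h4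
    rw [((IsUnit.mk0 _ hg).map (algebraMap K R)).mul_left_eq_zero, sub_eq_zero] at h4
    exact h4.symm

end Vale.Agent.P194
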